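import Vale.Agent.P329.H67.A

/-!
# P329 / all clocks, all windows, sums modulo every number
-/

set_option linter.all false

namespace Vale.Agent.P329.H265.AllN

open Vale.Agent.P329 Vale.Agent.P329.H67

variable {α : Type}

/-- the window `R` is known, for all weights with period `n` -/
def Kb (n : ℕ) {N : ℕ} (R : Fin N → Option α) : Prop :=
  ∀ ψ : ℕ → ℤ, (∀ e, ψ (e + n) = ψ e) → KnZ fun w : List α => oc N (at1 ψ R) w.reverse

/-- the beginning -/
def rs {N M : ℕ} (h : N ≤ M) (W : Fin M → Option α) : Fin N → Option α :=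
  fun i => W (Fin.castLE h i)

theorem oc_rs {N M : ℕ} (h : N ≤ M) (F : ℕ → (Fin N → Option α) → ℤ) (X : List α) :
    oc N F X = oc M (fun e W => F e (rs h W)) X := by
  induction X with
  | nil => rfl
  | cons b X ih => rw [oc, oc, ih]; rfl

theorem oc_sub {N : ℕ} (F G : ℕ → (Fin N → Option α) → ℤ) (X : List α) :
    oc N (fun e W => F e W - G e W) X = oc N F X - oc N G X := by
  induction X with
  | nil => rfl
  | cons b X ih => rw [oc, oc, oc, ih]; ring

theorem oc_zero {N : ℕ} (X : List α) : oc N (fun _ _ => 0) X = 0 := by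
  induction X with
  | nil => rfl
  | cons b X ih => rw [oc, ih]; rfl

theorem gen [Finite α] {n M : ℕ} {F : ℕ → (Fin M → Option α) → ℤ}
    (hF : ∀ e W, F (e + n) W = F e W) (hR : ∀ R, Kb n R ∨ ∀ e, F e R = 0) :
    KnZ fun w : List α => oc M F w.reverse := by
  classical
  have : Fintype (Fin M → Option α) := Fintype.ofFinite _
  have h1 : KnZ fun w : List α => ∑ R : Fin M → Option α, oc M (at1 (fun e => F e R) R) w.reverse := by
    refine KnZ.sum _ fun R _ => ?_
    rcases hR R with h | h
    · exact h _ fun e => hF e R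
    · refine (KnZ.const 0).congr fun w => ?_
      rw [← oc_zero (N := M) w.reverse]
      congr 1
      funext e W
      unfold at1
      split
      · exact h e
      · rfl
  refine h1.congr fun w => ?_
  rw [← oc_sum]
  congr 1
  funext e W
  rw [Finset.sum_eq_single W]
  · unfold at1; rw [if_pos rfl]
  · intro R _ hne
    unfold at1; rw [if_neg (Ne.symm hne)]
  · intro h; exact absurd (Finset.mem_univ _) h

theorem at1_per {N n : ℕ} {ψ : ℕ → ℤ} (hψ : ∀ e, ψ (e + n) = ψ e) (R : Fin N → Option α)
    (e : ℕ) (W : Fin N → Option α) : at1 ψ R (e + n) W = at1 ψ R e W := by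
  unfold at1; rw [hψ]

theorem ext [Finite α] {n N M : ℕ} (h : N ≤ M) {R : Fin N → Option α}
    (hR : ∀ W : Fin M → Option α, rs h W = R → Kb n W) : Kb n R := by
  intro ψ hψ
  have h1 : KnZ fun w : List α => oc M (fun e W => at1 ψ R e (rs h W)) w.reverse := by
    refine gen (n := n) (fun e W => at1_per hψ R e _) fun W => ?_
    by_cases h2 : rs h W = R
    · exact Or.inl (hR W h2)
    · right
      intro e
      unfold at1; rw [if_neg h2]
  exact h1.congr fun w => oc_rs h _ _

theorem cut [Finite α] {n N M : ℕ} (h : N ≤ M) {R : Fin M → Option α} (h0 : Kb n (rs h R))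
    (hR : ∀ W : Fin M → Option α, rs h W = rs h R → W ≠ R → Kb n W) : Kb n R := by
  intro ψ hψ
  have h1 : KnZ fun w : List α =>
      oc M (fun e W => at1 ψ (rs h R) e (rs h W) - at1 ψ R e W) w.reverse := by
    refine gen (n := n) (fun e W => by rw [at1_per hψ, at1_per hψ]) fun W => ?_
    by_cases h3 : W = R
    · right
      intro e
      subst h3
      unfold at1; rw [if_pos rfl, if_pos rfl, sub_self]
    by_cases h2 : rs h W = rs h R
    · exact Or.inl (hR W h2 h3)
    · right
      intro e
      unfold at1; rw [if_neg h2, if_neg h3, sub_self]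
  refine ((h0 ψ hψ).sub h1).congr fun w => ?_
  beta_reduce
  rw [oc_sub, ← oc_rs h]
  ring

theorem prim [Finite α] {n N : ℕ} (hN : 0 < N) (hn : n ∣ N) {R : Fin N → Option α}
    (hR : ∀ t, t ∣ N → t < N → ¬ Per t R) : Kb n R := by
  intro ψ hψ
  obtain ⟨k, rfl⟩ := hn
  exact stA α _ hN R hR ψ fun e => per_mod hψ k e

theorem Per.of_dvd {N s t : ℕ} (h : s ∣ t) {R : Fin N → Option α} (hR : Per s R) : Per t R :=
  fun i j hij => hR i j (Nat.ModEq.of_dvd h hij)

theorem Per.rs {N M s : ℕ} (h : N ≤ M) {R : Fin M → Option α} (hR : Per s R) :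
    Per s (rs h R) := fun i j hij => hR _ _ hij

/-- two periods -/
theorem fw {N e t : ℕ} (ht : 0 < t) {R : Fin N → Option α} (he : Per e R) (hR : Per t R)
    (hle : e + t ≤ N) (hm : ∀ s, s ∣ t → s < t → ¬ Per s R) : t ∣ e := by
  by_contra hd
  have hg : Nat.gcd e t < t := by
    rcases Nat.lt_or_ge (Nat.gcd e t) t with h | h
    · exact h
    · exfalso
      have h1 := Nat.le_antisymm (Nat.le_of_dvd ht (Nat.gcd_dvd_right e t)) h
      exact hd (h1 ▸ Nat.gcd_dvd_left e t)
  obtain ⟨m, hm1⟩ := Nat.exists_mul_mod_eq_gcd hg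
  refine hm _ (Nat.gcd_dvd_right e t) hg ?_
  have hlt : ∀ i : ℕ, i % t < N := fun i => by have := Nat.mod_lt i ht; omega
  let ζ : ℕ → Option α := fun i => R ⟨i % t, hlt i⟩
  have z1 : ∀ i, ζ (i + e) = ζ i := by
    intro i
    have h0 := Nat.mod_lt i ht
    have h1 : R ⟨(i % t + e), by omega⟩ = R ⟨i % t, hlt i⟩ :=
      he _ _ (by show (i % t + e) % e = _; rw [Nat.add_mod_right])
    have h2 : R ⟨(i % t + e), by omega⟩ = R ⟨(i + e) % t, hlt _⟩ :=
      hR _ _ (by show (i % t + e) % t = (i + e) % t % t; rw [Nat.mod_mod, Nat.mod_add_mod])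
    exact h2.symm.trans h1
  have z2 : ∀ i a, ζ (i + e * a) = ζ i := by
    intro i a
    induction a with
    | zero => rfl
    | succ a ih => rw [Nat.mul_succ, ← Nat.add_assoc, z1, ih]
  have z3 : ∀ i j, i % t = j % t → ζ i = ζ j := by
    intro i j hij
    show R _ = R _
    congr 1
    exact Fin.ext hij
  have z4 : ∀ i : Fin N, ζ i.val = R i := fun i => hR _ _ (Nat.mod_mod _ _)
  have hle' : ∀ i j : Fin N, i.val ≤ j.val → i.val % Nat.gcd e t = j.val % Nat.gcd e t →
      R i = R j := by
    intro i j hij hmod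
    obtain ⟨c, hc⟩ : Nat.gcd e t ∣ j.val - i.val := (Nat.modEq_iff_dvd' hij).mp hmod
    rw [← z4 i, ← z4 j, ← z2 i.val (m * c)]
    refine z3 _ _ ?_
    have h1 : (e * (m * c)) % t = (Nat.gcd e t * c) % t := by
      rw [← Nat.mul_assoc, Nat.mul_mod, hm1.2, ← Nat.mul_mod_mod, Nat.mul_mod]
      simp [Nat.mul_mod]
    rw [Nat.add_mod, h1, ← Nat.add_mod, ← hc]
    congr 1
    omega
  intro i j hij
  rcases Nat.le_total i.val j.val with h | h
  · exact hle' i j h hij
  · exact (hle' j i h hij.symm).symm

/-- least period -/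
theorem least {N : ℕ} (hN : 0 < N) (R : Fin N → Option α) : ∃ t, 0 < t ∧ t ∣ N ∧ Per t R ∧
    ∀ s, s ∣ t → s < t → ¬ Per s R := by
  classical
  have h : ∃ t, 0 < t ∧ t ∣ N ∧ Per t R := ⟨N, hN, dvd_rfl, fun i j hij => by
    congr 1
    apply Fin.ext
    rwa [Nat.mod_eq_of_lt i.2, Nat.mod_eq_of_lt j.2] at hij⟩
  refine ⟨Nat.find h, (Nat.find_spec h).1, (Nat.find_spec h).2.1, (Nat.find_spec h).2.2, ?_⟩
  intro s h1 h2 h3
  exact Nat.find_min h h2 ⟨Nat.pos_of_dvd_of_pos h1 (Nat.find_spec h).1,
    h1.trans (Nat.find_spec h).2.1, h3⟩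

theorem two_div {a b : ℕ} (h : a ∣ b) (hlt : a < b) : 2 * a ≤ b := by
  obtain ⟨c, rfl⟩ := h
  rcases c with _ | _ | c
  · omega
  · omega
  · rw [Nat.mul_comm a]; exact Nat.mul_le_mul_right a (by omega)

/-- short periods -/
theorem short [Finite α] {n N t : ℕ} (hn : 0 < n) (hnN : n ∣ N) (hN : 3 * n ≤ N)
    {R : Fin N → Option α} (ht : 0 < t) (htN : t ∣ N) (hR : Per t R)
    (hm : ∀ s, s ∣ t → s < t → ¬ Per s R) (h3 : 3 * t ≤ N) (hd : ¬ t ∣ n) : Kb n R := by
  refine ext (Nat.le_add_right N n) fun W hW => prim (by omega) (Dvd.dvd.add hnN dvd_rfl) ?_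
  intro e he1 he2 he3
  have h1 := two_div he1 he2
  have h2 : Per e R := by
    rw [← hW]
    exact Per.rs _ he3
  have h4 := fw ht h2 hR (by omega) hm
  exact hd ((Nat.dvd_add_right htN).mp (h4.trans he1))

theorem per_mod' {N s n : ℕ} {R : Fin N → Option α} (hR : Per n R) (hnN : n ∣ N) (hn : 0 < n)
    (hle : n ≤ N) (hs : s ∣ n) (h : Per s (rs hle R)) : Per s R := by
  have h1 : ∀ i : Fin N, R i = rs hle R ⟨i.val % n, Nat.mod_lt _ hn⟩ := fun i =>
    hR _ _ (by show i.val % n = i.val % n % n; rw [Nat.mod_mod])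
  intro i j hij
  rw [h1 i, h1 j]
  refine h _ _ ?_
  show i.val % n % s = j.val % n % s
  rw [Nat.mod_mod_of_dvd _ hs, Nat.mod_mod_of_dvd _ hs, hij]

theorem per_eq {N n : ℕ} {R W : Fin N → Option α} (hR : Per n R) (hW : Per n W) (hn : 0 < n)
    (hle : n ≤ N) (h : rs hle W = rs hle R) : W = R := by
  funext i
  have h1 : ∀ V : Fin N → Option α, Per n V →
      V i = rs hle V ⟨i.val % n, Nat.mod_lt _ hn⟩ := fun V hV =>
    hV _ _ (by show i.val % n = i.val % n % n; rw [Nat.mod_mod])
  rw [h1 R hR, h1 W hW, h]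

/-- windows which do not have the period `n` -/
theorem nper [Finite α] {n k : ℕ} (hn : 0 < n) (hk : 2 ≤ k) {R : Fin (2 * (n * k)) → Option α}
    (hR : ¬ Per n R) : Kb n R := by
  have hnk : 2 * n ≤ n * k := by rw [Nat.mul_comm 2]; exact Nat.mul_le_mul_left n hk
  have hN : 0 < 2 * (n * k) := by omega
  have hd : n ∣ 2 * (n * k) := Dvd.dvd.mul_left (Dvd.intro k rfl) 2
  have key : ∀ V : Fin (2 * (n * k)) → Option α, ¬ Per n V → ∀ t, 0 < t → t ∣ 2 * (n * k) →
      Per t V → (∀ s, s ∣ t → s < t → ¬ Per s V) → t ≠ n * k → Kb n V := by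
    intro V hV t h1 h2 h3 h4 h7
    by_cases h5 : t = 2 * (n * k)
    · subst h5
      exact prim hN hd h4
    have h6 : 3 * t ≤ 2 * (n * k) := by
      have h8 : t < 2 * (n * k) := lt_of_le_of_ne (Nat.le_of_dvd hN h2) h5
      obtain ⟨c, hc⟩ := h2
      rcases c with _ | _ | _ | c
      · omega
      · omega
      · omega
      · rw [hc, Nat.mul_comm t]; exact Nat.mul_le_mul_right t (by omega)
    exact short hn hd (by omega) h1 h2 h3 h4 h6 fun h => hV (Per.of_dvd h h3)
  obtain ⟨t, h1, h2, h3, h4⟩ := least hN R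
  by_cases h5 : t = n * k
  · subst h5
    have hle : n * k ≤ 2 * (n * k) := by omega
    refine cut hle (prim h1 (Dvd.intro k rfl) ?_) ?_
    · intro s hs1 hs2 hs3
      exact h4 s hs1 hs2 (per_mod' h3 h2 h1 hle hs1 hs3)
    · intro W hW1 hW2
      obtain ⟨s, hs0, hs1, hs2, hs3⟩ := least hN W
      refine key W ?_ s hs0 hs1 hs2 hs3 ?_
      · intro hWn
        have h6 : Per n (rs hle R) := by
          rw [← hW1]
          exact Per.rs _ hWn
        exact h4 n (Dvd.intro k rfl) (by omega) (per_mod' h3 h2 h1 hle (Dvd.intro k rfl) h6)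
      · intro hs4
        subst hs4
        exact hW2 (per_eq h3 hs2 h1 hle hW1)
  · exact key R hR t h1 h2 h3 h4 h5

/-! ### shifts -/

/-- occurrences `j` places before -/
noncomputable def occ (N j : ℕ) (ψ : ℕ → ℤ) (R : Fin N → Option α) : List α → ℤ
  | [] => 0
  | b :: X => occ N j ψ R X + at1 ψ R (X.length + 1) (win N ((b :: X).drop j))

theorem occ_zero {N : ℕ} (ψ : ℕ → ℤ) (R : Fin N → Option α) (X : List α) :
    occ N 0 ψ R X = oc N (at1 ψ R) X := by
  induction X with
  | nil => rfl
  | cons b X ih => rw [occ, ih]; rfl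

theorem occ_succ {N j : ℕ} (ψ : ℕ → ℤ) (R : Fin N → Option α) (X : List α) :
    occ N (j + 1) ψ R X = occ N j (fun e => ψ (e + 1)) R X -
      at1 ψ R (X.length + 1) (win N (X.drop j)) + at1 ψ R 1 (win N []) := by
  classical
  induction X with
  | nil => rw [occ, occ, List.drop_nil, List.length_nil, Nat.zero_add]; ring
  | cons b X ih =>
    rw [occ, occ, ih, List.drop_succ_cons]
    have h1 : at1 (fun e => ψ (e + 1)) R (X.length + 1) (win N ((b :: X).drop j)) =
        at1 ψ R ((b :: X).length + 1) (win N ((b :: X).drop j)) := rfl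
    rw [h1]
    ring

theorem one_none : NoCyc (fun (_ : Unit) (_ : α) => (none : Option Unit)) := by
  intro z s k hk h
  cases z with
  | nil => rfl
  | cons b z =>
    exfalso
    obtain ⟨k, rfl⟩ : ∃ k', k = k' + 1 := ⟨k - 1, by omega⟩
    rw [List.replicate_succ, List.flatten_cons] at h
    obtain ⟨t, h1, -⟩ := run_append_eq_some h
    obtain ⟨t', h2, -⟩ := run_cons_eq_some h1
    cases h2

theorem len_known [Finite α] : KnZ fun w : List α => (w.length : ℤ) := by
  refine (KnZ.of_event (one_none (α := α)) () ()).congr fun w => ?_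
  have h : ∀ w : List α, cnt (fun (_ : Unit) (_ : α) => (none : Option Unit)) () () w =
      w.length := by
    intro w
    induction w with
    | nil => rfl
    | cons b w ih => rw [cnt_cons_none w rfl, ih]; simp [Nat.add_comm]
  rw [h]

theorem loc_known [Finite α] {n c : ℕ} (hn : 0 < n) {B : Type} (L : List α → B)
    (hL : ∀ X Y : List α, X.length % n = Y.length % n → X.take c = Y.take c → L X = L Y) :
    Kn fun w : List α => L w.reverse := by
  classical
  haveI : NeZero n := ⟨hn.ne'⟩
  haveI : Finite {l : List α // l.length ≤ c} := (List.finite_length_le α c).to_subtype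
  let F : List α → ZMod n × {l : List α // l.length ≤ c} := fun w =>
    ((w.length : ZMod n), ⟨w.reverse.take c, by rw [List.length_take]; exact min_le_left _ _⟩)
  have hF : Kn F := by
    refine Kn.pair ?_ ?_
    · have h1 := len_known (α := α) n hn
      simpa only [Int.cast_natCast] using h1
    · intro u
      refine Eq.mp (congrArg (SH 1) ?_)
        (H434.LocK.one α c (fun X => X.take c = u.1) (fun X Y _ h => by rw [h]))
      ext w
      constructor
      · intro h
        exact Subtype.ext h
      · intro h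
        exact congrArg Subtype.val h
  let φ : ZMod n × {l : List α // l.length ≤ c} → B := fun x =>
    if h : ∃ w, F w = x then L h.choose.reverse else L []
  have h1 : (fun w : List α => L w.reverse) = fun w => φ (F w) := by
    funext w
    have h : ∃ w', F w' = F w := ⟨w, rfl⟩
    have h2 : φ (F w) = L h.choose.reverse := dif_pos h
    rw [h2]
    have h3 := h.choose_spec
    have h4 := congrArg Prod.fst h3
    have h5 := congrArg (fun x => x.2.1) h3
    refine (hL _ _ ?_ ?_).symm
    · rw [List.length_reverse, List.length_reverse]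
      exact (ZMod.natCast_eq_natCast_iff' _ _ _).mp h4
    · exact h5
  rw [h1]
  exact hF.comp φ

theorem locZ [Finite α] {n c : ℕ} (hn : 0 < n) (L : List α → ℤ)
    (hL : ∀ X Y : List α, X.length % n = Y.length % n → X.take c = Y.take c → L X = L Y) :
    KnZ fun w : List α => L w.reverse := fun m _ =>
  loc_known hn (fun X => ((L X : ℤ) : ZMod m)) fun X Y h1 h2 => by rw [hL X Y h1 h2]

theorem get_take {X Y : List α} {c k : ℕ} (h : X.take c = Y.take c) (hk : k < c) :
    X[k]? = Y[k]? := by
  have h1 := congrArg (fun l : List α => l[k]?) h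
  simpa [List.getElem?_take, hk] using h1

theorem psi_mod {n : ℕ} {ψ : ℕ → ℤ} (h : ∀ e, ψ (e + n) = ψ e) {a b : ℕ} (hab : a % n = b % n) :
    ψ a = ψ b := by
  have h1 : ∀ a, ψ a = ψ (a % n) := fun a => by
    conv_lhs => rw [← Nat.mod_add_div a n]
    exact per_mod h _ _
  rw [h1 a, h1 b, hab]

theorem shift [Finite α] {n N : ℕ} (hn : 0 < n) (R : Fin N → Option α) (j : ℕ) :
    ∀ ψ : ℕ → ℤ, (∀ e, ψ (e + n) = ψ e) → KnZ fun w : List α =>
      occ N j ψ R w.reverse - oc N (at1 (fun e => ψ (e + j)) R) w.reverse := by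
  classical
  induction j with
  | zero =>
    intro ψ hψ
    refine (KnZ.const 0).congr fun w => ?_
    rw [occ_zero]
    exact sub_self _
  | succ j ih =>
    intro ψ hψ
    have h1 := ih (fun e => ψ (e + 1)) fun e => by
      show ψ (e + n + 1) = ψ (e + 1)
      rw [Nat.add_right_comm, hψ]
    have h2 := locZ (n := n) (c := N + j) hn (fun X : List α =>
      at1 ψ R (X.length + 1) (win N (X.drop j))) (by
        intro X Y h3 h4
        have h5 : win N (X.drop j) = win N (Y.drop j) := by
          funext i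
          show (X.drop j)[i.val]? = (Y.drop j)[i.val]?
          rw [List.getElem?_drop, List.getElem?_drop]
          exact get_take h4 (by have := i.2; omega)
        have h6 : ψ (X.length + 1) = ψ (Y.length + 1) := psi_mod hψ (Nat.ModEq.add_right 1 h3)
        beta_reduce
        rw [h5]
        unfold at1
        rw [h6])
    refine ((h1.sub h2).add (KnZ.const (at1 ψ R 1 (win N [])))).congr fun w => ?_
    beta_reduce
    rw [occ_succ]
    have h7 : (fun e => ψ (e + (j + 1))) = fun e => ψ (e + j + 1) := rfl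
    rw [h7]
    ring

/-- later part -/
def sh {N M t : ℕ} (h : N + t ≤ M) (W : Fin M → Option α) : Fin N → Option α :=
  fun i => W ⟨i.val + t, by have := i.2; omega⟩

theorem occ_sh {N M t : ℕ} (h : N + t ≤ M) (ψ : ℕ → ℤ) (R : Fin N → Option α) (X : List α) :
    occ N t ψ R X = oc M (fun e W => at1 ψ R e (sh h W)) X := by
  induction X with
  | nil => rfl
  | cons b X ih =>
    rw [occ, oc, ih]
    congr 2
    funext i
    show ((b :: X).drop t)[i.val]? = (b :: X)[i.val + t]?
    rw [List.getElem?_drop, Nat.add_comm]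

theorem brk [Finite α] {n k t : ℕ} (hn : 0 < n) (hk : 2 ≤ k) (htn : t ∣ n) (hlt : t < n)
    {R : Fin (2 * (n * k)) → Option α} (hR : Per t R) (ψ : ℕ → ℤ) (hψ : ∀ e, ψ (e + n) = ψ e) :
    KnZ fun w : List α => oc (2 * (n * k)) (at1 ψ R) w.reverse -
      occ (2 * (n * k)) t ψ R w.reverse := by
  classical
  have ht : 0 < t := Nat.pos_of_dvd_of_pos htn hn
  have hnk : 2 * n ≤ n * k := by rw [Nat.mul_comm 2]; exact Nat.mul_le_mul_left n hk
  have h2k : 2 * (n * (2 * k)) = 2 * (2 * (n * k)) := by ring
  have hle : 2 * (n * k) + t ≤ 2 * (n * (2 * k)) := by omega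
  have hle' : 2 * (n * k) ≤ 2 * (n * (2 * k)) := by omega
  have hnN : n ≤ 2 * (n * k) := by omega
  have hnM : n ≤ 2 * (n * (2 * k)) := by omega
  have hdM : n ∣ 2 * (n * (2 * k)) := Dvd.dvd.mul_left (Dvd.intro _ rfl) 2
  have h1 : KnZ fun w : List α => oc (2 * (n * (2 * k)))
      (fun e W => at1 ψ R e (rs hle' W) - at1 ψ R e (sh hle W)) w.reverse := by
    refine gen (n := n) (fun e W => by rw [at1_per hψ, at1_per hψ]) fun W => ?_
    by_cases hW : Per n W
    · right
      intro e
      have key : Per t W → sh hle W = rs hle' W := by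
        intro h
        funext i
        exact h _ _ (by show (i.val + t) % t = i.val % t; rw [Nat.add_mod_right])
      have h3 : rs hle' W = R ↔ sh hle W = R := by
        constructor
        · intro h4
          have h5 : Per t W := by
            refine per_mod' hW hdM hn hnM htn ?_
            have h6 : rs hnM W = rs hnN (rs hle' W) := rfl
            rw [h6, h4]
            exact Per.rs _ hR
          rw [key h5, h4]
        · intro h4
          have h5 : Per t W := by
            refine per_mod' hW hdM hn hnM htn ?_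
            intro i j hij
            have hi := i.2
            have hj := j.2
            have h6 : ∀ i : Fin n, rs hnM W i = R ⟨i.val + n - t, by have := i.2; omega⟩ := by
              intro i
              have hi := i.2
              rw [← h4]
              refine hW _ _ ?_
              show i.val % n = (i.val + n - t + t) % n
              rw [Nat.sub_add_cancel (by omega), Nat.add_mod_right]
            rw [h6 i, h6 j]
            refine hR _ _ ?_
            show (i.val + n - t) % t = (j.val + n - t) % t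
            rw [Nat.add_sub_assoc hlt.le, Nat.add_sub_assoc hlt.le]
            exact Nat.ModEq.add_right _ hij
          rw [← key h5, h4]
      unfold at1
      by_cases h4 : rs hle' W = R
      · rw [if_pos h4, if_pos (h3.mp h4), sub_self]
      · rw [if_neg h4, if_neg fun h5 => h4 (h3.mpr h5), sub_self]
    · exact Or.inl (nper hn (by omega) hW)
  refine h1.congr fun w => ?_
  rw [oc_sub, ← oc_rs hle', ← occ_sh hle]

/-- **all windows, all clocks** -/
theorem all_known [Finite α] (n : ℕ) : 0 < n → ∀ (N : ℕ) (R : Fin N → Option α), Kb n R := by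
  induction n using Nat.strong_induction_on with
  | _ n ih =>
  intro hn N R
  have main : ∀ (k : ℕ), 2 ≤ k → ∀ R : Fin (2 * (n * k)) → Option α, Kb n R := by
    intro k hk R
    have hnk : 2 * n ≤ n * k := by rw [Nat.mul_comm 2]; exact Nat.mul_le_mul_left n hk
    by_cases h1 : Per n R
    swap
    · exact nper hn hk h1
    by_cases h2 : ∃ t, t ∣ n ∧ t < n ∧ Per t R
    · obtain ⟨t, ht1, ht2, ht3⟩ := h2
      have ht : 0 < t := Nat.pos_of_dvd_of_pos ht1 hn
      intro ψ hψ
      have hsh : ∀ a e, ψ (e + n + a) = ψ (e + a) := fun a e => by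
        rw [Nat.add_right_comm, hψ]
      have h3 : ∀ c, KnZ fun w : List α => oc (2 * (n * k)) (at1 ψ R) w.reverse -
          oc (2 * (n * k)) (at1 (fun e => ψ (e + t * c)) R) w.reverse := by
        intro c
        induction c with
        | zero =>
          refine (KnZ.const 0).congr fun w => ?_
          exact sub_self _
        | succ c ihc =>
          have a1 := brk hn hk ht1 ht2 ht3 (fun e => ψ (e + t * c)) fun e => hsh _ _
          have a2 := shift hn R t (fun e => ψ (e + t * c)) fun e => hsh _ _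
          refine ((ihc.add a1).add a2).congr fun w => ?_
          beta_reduce
          have a3 : (fun e => ψ (e + t * (c + 1))) = fun e => ψ (e + t + t * c) := by
            funext e
            congr 1
            ring
          rw [a3]
          ring
      let Ψ : ℕ → ℤ := fun e => ∑ c ∈ Finset.range n, ψ (e + t * c)
      have hΨ : ∀ e, Ψ (e + t) = Ψ e := by
        intro e
        show ∑ c ∈ Finset.range n, ψ (e + t + t * c) = ∑ c ∈ Finset.range n, ψ (e + t * c)
        have b1 := Finset.sum_range_succ (fun c => ψ (e + t * c)) n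
        have b2 := Finset.sum_range_succ' (fun c => ψ (e + t * c)) n
        rw [b1] at b2
        have b3 : ψ (e + t * n) = ψ (e + t * 0) := by
          refine psi_mod hψ ?_
          rw [Nat.mul_zero, Nat.add_zero, Nat.add_mul_mod_self_right]
        rw [b3] at b2
        have b4 := add_right_cancel b2
        rw [b4]
        refine Finset.sum_congr rfl fun c _ => ?_
        congr 1
        ring
      have h4 := ih t ht2 ht _ R Ψ hΨ
      have h5 := (KnZ.sum (Finset.range n) fun c _ => h3 c).add h4
      refine KnZ.div hn (h5.congr fun w => ?_)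
      beta_reduce
      have h6 : oc (2 * (n * k)) (at1 Ψ R) w.reverse =
          ∑ c ∈ Finset.range n, oc (2 * (n * k)) (at1 (fun e => ψ (e + t * c)) R) w.reverse := by
        rw [← oc_sum]
        congr 1
        funext e W
        unfold at1
        by_cases h : W = R
        · rw [if_pos h]
          exact Finset.sum_congr rfl fun c _ => (if_pos h).symm
        · rw [if_neg h]
          exact (Finset.sum_eq_zero fun c _ => if_neg h).symm
      rw [h6, Finset.sum_sub_distrib, Finset.sum_const, Finset.card_range, nsmul_eq_mul]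
      ring
    · have hle : n ≤ 2 * (n * k) := by omega
      have hd : n ∣ 2 * (n * k) := Dvd.dvd.mul_left (Dvd.intro k rfl) 2
      refine cut hle (prim hn dvd_rfl ?_) ?_
      · intro s hs1 hs2 hs3
        exact h2 ⟨s, hs1, hs2, per_mod' h1 hd hn hle hs1 hs3⟩
      · intro W hW1 hW2
        refine nper hn hk fun hW3 => hW2 (per_eq h1 hW3 hn hle hW1)
  have hle : N ≤ 2 * (n * (N + 2)) := by
    have : 1 * (N + 2) ≤ n * (N + 2) := Nat.mul_le_mul_right _ hn
    omega
  exact ext hle fun W _ => main (N + 2) (by omega) W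

/-- **weighted numbers of occurrences of windows, with any clock, modulo any number** -/
theorem stBn {α : Type} [Finite α] {n N : ℕ} (hn : 0 < n) (F : ℕ → (Fin N → Option α) → ℤ)
    (hF : ∀ e W, F (e + n) W = F e W) : KnZ fun w : List α => oc N F w.reverse :=
  gen hF fun R => Or.inl (all_known n hn N R)

end Vale.Agent.P329.H265.AllN
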