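import Vale.Agent.P329.S4.Base

/-! Automata which read the reflection letters in pairs: no nontrivial cycles. -/

namespace Vale.Agent.P329.H265

open Vale.Agent.P329 Vale.Agent.P329.S4

variable {α : Type}

/-- the pending reflection -/
def nx (r : α → Bool) (φ : Option α) (x : α) : Option α :=
  if r x = true then (match φ with | none => some x | some _ => none) else φ

theorem nx_pos {r : α → Bool} {x : α} (h : r x = false) (φ : Option α) : nx r φ x = φ := by
  unfold nx
  rw [if_neg (by rw [h]; exact Bool.false_ne_true)]

theorem nx_none {r : α → Bool} {x : α} (h : r x = true) : nx r none x = some x := by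
  unfold nx
  rw [if_pos h]

theorem nx_some {r : α → Bool} {x y : α} (h : r x = true) : nx r (some y) x = none := by
  unfold nx
  rw [if_pos h]

/-- weight as a number -/
def b2 (n : ℕ) (b : Bool) : ZMod n := if b = true then 1 else 0

/-- step of the walk -/
def st (r : α → Bool) (n : ℕ) (wt : Option α → α → Bool) (s : ZMod n × Option α) (x : α) :
    ZMod n × Option α := (s.1 + b2 n (wt s.2 x), nx r s.2 x)

open Classical in
/-- step with events -/
noncomputable def ev (r : α → Bool) (n : ℕ) (wt T : Option α → α → Bool) (s : ZMod n × Option α)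
    (x : α) : Option (ZMod n × Option α) :=
  if st r n wt s x = (0, none) ∧ (wt s.2 x = true ∨ T s.2 x = true) then none
  else some (st r n wt s x)

variable {r : α → Bool} {n : ℕ} {wt T : Option α → α → Bool}

theorem ev_some {s t : ZMod n × Option α} {x : α} (h : ev r n wt T s x = some t) :
    t = st r n wt s x ∧
      ¬ (st r n wt s x = (0, none) ∧ (wt s.2 x = true ∨ T s.2 x = true)) := by
  unfold ev at h
  by_cases h0 : st r n wt s x = (0, none) ∧ (wt s.2 x = true ∨ T s.2 x = true)
  · rw [if_pos h0] at h; cases h
  · rw [if_neg h0] at h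
    exact ⟨(Option.some.inj h).symm, h0⟩

/-- weights are only given when no reflection is pending afterwards -/
def C1 (r : α → Bool) (wt : Option α → α → Bool) : Prop :=
  ∀ φ x, wt φ x = true → nx r φ x = none

/-- the pairs of weight zero are two-coloured -/
def C2 (r : α → Bool) (wt : Option α → α → Bool) (c : α → Bool) : Prop :=
  ∀ y x, r x = true → wt (some y) x = false → c x = !(c y)

theorem val_succ [NeZero n] {u : ZMod n} (h : u + 1 ≠ 0) : (u + 1).val = u.val + 1 := by
  by_cases h1 : n = 1
  · subst h1
    exact absurd (Subsingleton.elim _ _) h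
  · have h2 : Fact (1 < n) := ⟨by have := NeZero.ne n; omega⟩
    rw [ZMod.val_add, ZMod.val_one]
    apply Nat.mod_eq_of_lt
    have h3 := ZMod.val_lt u
    rcases Nat.lt_or_ge (u.val + 1) n with h4 | h4
    · exact h4
    · exfalso
      apply h
      have h5 : u.val + 1 = n := by omega
      have h6 : ((u.val + 1 : ℕ) : ZMod n) = 0 := by rw [h5]; exact ZMod.natCast_self n
      rw [Nat.cast_add, ZMod.natCast_val, ZMod.cast_id', id, Nat.cast_one] at h6
      exact h6

theorem ev_mono [NeZero n] (h1 : C1 r wt) {s t : ZMod n × Option α} {x : α}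
    (h : ev r n wt T s x = some t) :
    (wt s.2 x = false ∧ t.1 = s.1) ∨ s.1.val < t.1.val := by
  obtain ⟨rfl, h0⟩ := ev_some h
  cases hw : wt s.2 x
  · left
    refine ⟨rfl, ?_⟩
    show s.1 + b2 n (wt s.2 x) = s.1
    rw [hw, b2, if_neg Bool.false_ne_true, add_zero]
  · right
    have h2 : (st r n wt s x).1 = s.1 + 1 := by
      show s.1 + b2 n (wt s.2 x) = s.1 + 1
      rw [hw, b2, if_pos rfl]
    have h3 : (st r n wt s x).2 = none := h1 _ _ hw
    have h4 : s.1 + 1 ≠ 0 := by
      intro h5
      apply h0
      refine ⟨Prod.ext (h2.trans h5) h3, Or.inl hw⟩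
    rw [h2, val_succ h4]
    exact Nat.lt_succ_self _

theorem run_mono [NeZero n] (h1 : C1 r wt) {w : List α} {s t : ZMod n × Option α}
    (h : run (ev r n wt T) s w = some t) : s.1.val ≤ t.1.val := by
  induction w generalizing s with
  | nil => cases h; exact le_rfl
  | cons x w ih =>
    obtain ⟨s', h2, h3⟩ := run_cons_eq_some h
    have h4 := ih h3
    rcases ev_mono h1 h2 with ⟨-, h5⟩ | h5
    · rw [← h5]; exact h4
    · omega

theorem run_snd {w : List α} {s t : ZMod n × Option α}
    (h : run (ev r n wt T) s w = some t) : t.2 = w.foldl (nx r) s.2 := by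
  induction w generalizing s with
  | nil => cases h; rfl
  | cons x w ih =>
    obtain ⟨s', h2, h3⟩ := run_cons_eq_some h
    rw [ih h3, (ev_some h2).1]
    rfl

/-- parity of the number of reflections -/
def par (r : α → Bool) (w : List α) : Bool := w.foldl (fun p x => xor p (r x)) false

theorem par_aux (w : List α) (p : Bool) :
    w.foldl (fun p x => xor p (r x)) p = xor p (par r w) := by
  induction w generalizing p with
  | nil => exact (Bool.xor_false p).symm
  | cons x w ih =>
    have h : par r (x :: w) = xor (xor false (r x)) (par r w) := ih _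
    rw [h, List.foldl_cons, ih, Bool.false_xor, Bool.xor_assoc]

theorem par_cons (x : α) (w : List α) : par r (x :: w) = xor (r x) (par r w) := by
  have h : par r (x :: w) = xor (xor false (r x)) (par r w) := par_aux w _
  rw [h, Bool.false_xor]

theorem nx_isSome (φ : Option α) (x : α) : (nx r φ x).isSome = xor φ.isSome (r x) := by
  cases h : r x
  · rw [nx_pos h, Bool.xor_false]
  · rcases φ with _ | y
    · rw [nx_none h]; rfl
    · rw [nx_some h]; rfl

theorem fold_isSome (w : List α) (φ : Option α) :
    (w.foldl (nx r) φ).isSome = xor φ.isSome (par r w) := by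
  induction w generalizing φ with
  | nil => exact (Bool.xor_false _).symm
  | cons x w ih => rw [List.foldl_cons, ih, nx_isSome, par_cons, Bool.xor_assoc]

/-- two pending states which agree in being empty agree after a word with a reflection -/
theorem fold_eq (w : List α) (φ ψ : Option α) (h : φ.isSome = ψ.isSome) :
    w.foldl (nx r) φ = w.foldl (nx r) ψ ∨ (w.foldl (nx r) φ = φ ∧ w.foldl (nx r) ψ = ψ) := by
  induction w generalizing φ ψ with
  | nil => exact Or.inr ⟨rfl, rfl⟩
  | cons x w ih =>
    rw [List.foldl_cons, List.foldl_cons]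
    cases hx : r x
    · rw [nx_pos hx, nx_pos hx]
      exact ih φ ψ h
    · left
      congr 1
      rcases φ with _ | y
      · rcases ψ with _ | y'
        · rfl
        · cases h
      · rcases ψ with _ | y'
        · cases h
        · rw [nx_some hx, nx_some hx]

/-- colour of a pair of opposite pending states -/
def cc (c : α → Bool) : Option α → Option α → Bool
  | some y, none => c y
  | none, some y => c y
  | _, _ => false

theorem pair_run [NeZero n] (h1 : C1 r wt) {c : α → Bool} (h2 : C2 r wt c) {w : List α}
    {s s' t t' : ZMod n × Option α} (hs : run (ev r n wt T) s w = some s')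
    (ht : run (ev r n wt T) t w = some t') (hs1 : s'.1.val ≤ s.1.val) (ht1 : t'.1.val ≤ t.1.val)
    (ho : s.2.isSome = !t.2.isSome) :
    s'.2.isSome = !t'.2.isSome ∧ cc c s'.2 t'.2 = xor (cc c s.2 t.2) (par r w) := by
  induction w generalizing s t with
  | nil =>
    cases hs; cases ht
    exact ⟨ho, (Bool.xor_false _).symm⟩
  | cons x w ih =>
    obtain ⟨s1, a1, a2⟩ := run_cons_eq_some hs
    obtain ⟨t1, b1, b2⟩ := run_cons_eq_some ht
    have a3 := run_mono h1 a2
    have b3 := run_mono h1 b2
    have a4 : wt s.2 x = false ∧ s1.1 = s.1 := by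
      rcases ev_mono h1 a1 with h | h
      · exact h
      · omega
    have b4 : wt t.2 x = false ∧ t1.1 = t.1 := by
      rcases ev_mono h1 b1 with h | h
      · exact h
      · omega
    have a5 : s1.2 = nx r s.2 x := by rw [(ev_some a1).1]; rfl
    have b5 : t1.2 = nx r t.2 x := by rw [(ev_some b1).1]; rfl
    have key : s1.2.isSome = !t1.2.isSome ∧ cc c s1.2 t1.2 = xor (cc c s.2 t.2) (r x) := by
      rw [a5, b5]
      cases hx : r x
      · rw [nx_pos hx, nx_pos hx, Bool.xor_false]
        exact ⟨ho, rfl⟩
      · rcases hφ : s.2 with _ | y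
        · rcases hψ : t.2 with _ | y'
          · rw [hφ, hψ] at ho; cases ho
          · rw [nx_none hx, nx_some hx]
            refine ⟨rfl, ?_⟩
            have := h2 y' x hx (by rw [← hψ]; exact b4.1)
            show c x = xor (c y') true
            rw [this, Bool.xor_true]
        · rcases hψ : t.2 with _ | y'
          · rw [nx_none hx, nx_some hx]
            refine ⟨rfl, ?_⟩
            have := h2 y x hx (by rw [← hφ]; exact a4.1)
            show c x = xor (c y) true
            rw [this, Bool.xor_true]
          · rw [hφ, hψ] at ho; cases ho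
    obtain ⟨c1, c2⟩ := ih a2 b2 (by rw [a4.2]; exact hs1) (by rw [b4.2]; exact ht1) key.1
    refine ⟨c1, ?_⟩
    rw [c2, key.2, par_cons, Bool.xor_assoc]

theorem ev_noCyc [NeZero n] (h1 : C1 r wt) {c : α → Bool} (h2 : C2 r wt c) :
    NoCyc (ev r n wt T) := by
  intro z s k hk hs
  have hit : ∀ j : ℕ, run (ev r n wt T) s (List.replicate (k * j) z).flatten = some s := by
    intro j
    induction j with
    | zero => rw [Nat.mul_zero]; rfl
    | succ j ih =>
      rw [Nat.mul_succ, List.replicate_add, List.flatten_append, run_append _ ih]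
      exact hs
  obtain ⟨m, hm⟩ : ∃ m, k * 3 = m + 3 := ⟨k * 3 - 3, by omega⟩
  have h3 := hit 3
  rw [hm, List.replicate_succ, List.flatten_cons] at h3
  obtain ⟨s1, p1, q1⟩ := run_append_eq_some h3
  rw [List.replicate_succ, List.flatten_cons] at q1
  obtain ⟨s2, p2, q2⟩ := run_append_eq_some q1
  rw [List.replicate_succ, List.flatten_cons] at q2
  obtain ⟨s3, p3, q3⟩ := run_append_eq_some q2
  have e1 := run_mono h1 p1
  have e2 := run_mono h1 p2
  have e3 := run_mono h1 p3
  have e4 := run_mono h1 q3
  have v1 : s1.1 = s.1 := ZMod.val_injective n (by omega)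
  have v2 : s2.1 = s.1 := ZMod.val_injective n (by omega)
  have v3 : s3.1 = s.1 := ZMod.val_injective n (by omega)
  rw [p1]
  congr 1
  refine Prod.ext v1 ?_
  -- pending parts
  have f1 := run_snd p1
  have f2 := run_snd p2
  have f3 := run_snd p3
  cases hp : par r z
  · -- even number of reflections
    have g : ∀ φ : Option α, (z.foldl (nx r) φ).isSome = φ.isSome := by
      intro φ; rw [fold_isSome, hp, Bool.xor_false]
    -- all the states at multiples of `z` have the same pending part as `s1`
    obtain ⟨l, hl⟩ : ∃ l, k = l + 1 := ⟨k - 1, by omega⟩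
    have hs' := hs
    rw [hl, List.replicate_succ', List.flatten_append, List.flatten_singleton] at hs'
    obtain ⟨t, t1, t2⟩ := run_append_eq_some hs'
    have f4 := run_snd t2
    have f5 : t.2.isSome = s.2.isSome := by rw [f4, g]
    rcases fold_eq (r := r) z s.2 t.2 f5.symm with h | ⟨h, -⟩
    · rw [f1, h, ← f4]
    · rw [f1, h]
  · exfalso
    have o1 : s1.2.isSome = !s.2.isSome := by rw [f1, fold_isSome, hp, Bool.xor_true]
    have o2 : s2.2.isSome = !s1.2.isSome := by rw [f2, fold_isSome, hp, Bool.xor_true]
    have o3 : s3.2.isSome = !s2.2.isSome := by rw [f3, fold_isSome, hp, Bool.xor_true]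
    have key : ∀ a b d : ZMod n × Option α, run (ev r n wt T) a z = some b →
        run (ev r n wt T) b z = some d → b.1 = a.1 → d.1 = b.1 → b.2.isSome = !a.2.isSome →
        d.2.isSome = !b.2.isSome → b.2.isSome = true → False := by
      intro a b d ha hb hab hbd i1 i2 i3
      obtain ⟨-, u2⟩ := pair_run (T := T) h1 h2 ha hb (by rw [hab]) (by rw [hbd])
        (by rw [i1, Bool.not_not])
      rcases hb2 : b.2 with _ | y
      · rw [hb2] at i3; cases i3
      · rcases ha2 : a.2 with _ | y'
        · rcases hd2 : d.2 with _ | y''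
          · rw [ha2, hb2, hd2, hp] at u2
            change c y = xor (c y) true at u2
            cases hc : c y <;> rw [hc] at u2 <;> cases u2
          · rw [hb2, hd2] at i2; cases i2
        · rw [hb2, ha2] at i1; cases i1
    cases hb : s1.2.isSome
    · exact key s1 s2 s3 p2 p3 (v2.trans v1.symm) (v3.trans v2.symm) o2 o3 (by rw [o2, hb]; rfl)
    · exact key s s1 s2 p1 p2 v1 (v2.trans v1.symm) o1 o2 hb

end Vale.Agent.P329.H265
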