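import Vale.Agent.P329.H265.Blk

/-! Counting the silent moves of the pair automata. -/

namespace Vale.Agent.P329.H265

open Vale.Agent.P329 Vale.Agent.P329.S4

variable {α : Type}

/-- number of weights -/
def Dc (r : α → Bool) (wt : Option α → α → Bool) (φ : Option α) (u : List α) : ℤ :=
  sm (fun v x => if wt (v.foldl (nx r) φ) x = true then 1 else 0) u

variable {r : α → Bool} {n : ℕ} {wt T : Option α → α → Bool}

theorem Dc_snoc (φ : Option α) (u : List α) (x : α) : Dc r wt φ (u ++ [x]) =
    Dc r wt φ u + if wt (u.foldl (nx r) φ) x = true then 1 else 0 := sm_snoc _ _ _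

theorem fold_st (v : ZMod n) (φ : Option α) (u : List α) : u.foldl (st r n wt) (v, φ) =
    (v + (Dc r wt φ u : ZMod n), u.foldl (nx r) φ) := by
  induction u using List.reverseRecOn with
  | nil => rw [Dc, sm_nil, Int.cast_zero, add_zero]; rfl
  | append_singleton u x ih =>
    rw [List.foldl_append, ih, List.foldl_cons, List.foldl_nil, Dc_snoc, List.foldl_append,
      List.foldl_cons, List.foldl_nil]
    refine Prod.ext ?_ rfl
    show v + (Dc r wt φ u : ZMod n) + b2 n (wt (u.foldl (nx r) φ) x) = _
    cases h : wt (u.foldl (nx r) φ) x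
    · rw [b2, if_neg Bool.false_ne_true, if_neg Bool.false_ne_true, add_zero, add_zero]
    · rw [b2, if_pos rfl, if_pos rfl]
      push_cast
      ring

open Classical in
/-- all silent moves are events, except one -/
noncomputable def Tx (φe : Option α) (xe : α) (φ : Option α) (x : α) : Bool :=
  !decide (φ = φe ∧ x = xe)

theorem cnt_formula {φe : Option α} {xe : α} (hw : wt φe xe = false)
    (hn : nx r φe xe = none) (w : List α) (s : ZMod n × Option α) :
    (cnt (ev r n wt fun _ _ => true) (0, none) s w : ℤ) -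
      cnt (ev r n wt (Tx φe xe)) (0, none) s w =
      W (st r n wt) xe (ind ((0 : ZMod n), φe)) s w := by
  classical
  induction w generalizing s with
  | nil => simp [cnt_nil, W_nil]
  | cons y w ih =>
    rw [W_cons]
    by_cases h1 : st r n wt s y = (0, none)
    · have e1 : ev r n wt (fun _ _ => true) s y = none := if_pos ⟨h1, Or.inr rfl⟩
      have ih0 := ih (0, none)
      rw [cnt_cons_none w e1, h1]
      by_cases h2 : s = (0, φe) ∧ y = xe
      · have e2 : ev r n wt (Tx φe xe) s y = some (0, none) := by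
          have h3 : ¬ (st r n wt s y = (0, none) ∧ (wt s.2 y = true ∨ Tx φe xe s.2 y = true)) := by
            rintro ⟨-, h4 | h4⟩
            · rw [h2.1, h2.2, hw] at h4; cases h4
            · rw [h2.1, h2.2, Tx, decide_eq_true (show φe = φe ∧ xe = xe from ⟨rfl, rfl⟩)] at h4
              cases h4
          exact (if_neg h3).trans (congrArg some h1)
        rw [cnt_cons_some w e2, if_pos h2.2, h2.1, ind_self]
        push_cast
        linarith only [ih0]
      · have h3 : ¬ (wt s.2 y = false ∧ s.2 = φe ∧ y = xe) := by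
          rintro ⟨h4, h5, h6⟩
          apply h2
          refine ⟨Prod.ext ?_ h5, h6⟩
          have h7 : (st r n wt s y).1 = s.1 := by
            show s.1 + b2 n (wt s.2 y) = s.1
            rw [h4, b2, if_neg Bool.false_ne_true, add_zero]
          rw [← h7, h1]
        have e2 : ev r n wt (Tx φe xe) s y = none := by
          refine if_pos ⟨h1, ?_⟩
          cases h4 : wt s.2 y
          · right
            rw [Tx, decide_eq_false fun h5 => h3 ⟨h4, h5⟩]; rfl
          · exact Or.inl rfl
        have h4 : (if y = xe then ind ((0 : ZMod n), φe) s else 0) = 0 := by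
          by_cases h5 : y = xe
          · rw [if_pos h5]
            exact ind_ne fun h => h2 ⟨h, h5⟩
          · rw [if_neg h5]
        rw [cnt_cons_none w e2, h4]
        push_cast
        linarith only [ih0]
    · have e1 : ev r n wt (fun _ _ => true) s y = some (st r n wt s y) :=
        if_neg fun h => h1 h.1
      have e2 : ev r n wt (Tx φe xe) s y = some (st r n wt s y) := if_neg fun h => h1 h.1
      have h4 : (if y = xe then ind ((0 : ZMod n), φe) s else 0) = 0 := by
        by_cases h5 : y = xe
        · rw [if_pos h5]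
          apply ind_ne
          intro h
          apply h1
          rw [h, h5]
          refine Prod.ext ?_ hn
          show (0 : ZMod n) + b2 n (wt φe xe) = 0
          rw [hw, b2, if_neg Bool.false_ne_true, add_zero]
        · rw [if_neg h5]
      rw [cnt_cons_some w e1, cnt_cons_some w e2, h4, ih]
      ring

theorem vis_known [Finite α] [NeZero n] (h1 : C1 r wt) {c : α → Bool} (h2 : C2 r wt c)
    {φe : Option α} {xe : α} (hw : wt φe xe = false) (hn : nx r φe xe = none)
    (s : ZMod n × Option α) : KnZ (W (st r n wt) xe (ind ((0 : ZMod n), φe)) s) := by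
  have k1 := KnZ.of_event (ev_noCyc (T := fun _ _ => true) (n := n) h1 h2) (0, none) s
  have k2 := KnZ.of_event (ev_noCyc (T := Tx φe xe) (n := n) h1 h2) (0, none) s
  exact (k1.sub k2).congr fun w => (cnt_formula hw hn w s).symm

open Classical in
/-- the sum of `F` over the reading positions of `xe` with pending `φe` -/
noncomputable def atp (r : α → Bool) (φ φe : Option α) (xe : α) (F : List α → ℤ) : List α → ℤ :=
  at_ xe fun u => if u.foldl (nx r) φ = φe then F u else 0

theorem cnt_known [Finite α] (h1 : C1 r wt) {c : α → Bool} (h2 : C2 r wt c)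
    {φe : Option α} {xe : α} (hw : wt φe xe = false) (hn : nx r φe xe = none)
    (φ : Option α) : KnZ (atp r φ φe xe (Dc r wt φ)) := by
  classical
  intro n hn0
  have hne : NeZero n := ⟨hn0.ne'⟩
  have k1 : Kn fun w => fun v : ZMod n =>
      ((W (st r n wt) xe (ind ((0 : ZMod n), φe)) (v, φ) w : ℤ) : ZMod n) :=
    Kn.pi fun v => vis_known h1 h2 hw hn (v, φ) n hn0
  have k2 := k1.comp fun t => ∑ v, (-v) * t v
  refine Eq.mp (congrArg Kn ?_) k2
  funext w
  rw [atp, show ((at_ xe (fun u => if u.foldl (nx r) φ = φe then Dc r wt φ u else 0) w : ℤ) :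
    ZMod n) = (Int.castAddHom (ZMod n)) (at_ xe (fun u =>
      if u.foldl (nx r) φ = φe then Dc r wt φ u else 0) w) from rfl, at_hom]
  have k3 : ∀ v : ZMod n, (-v) * ((W (st r n wt) xe (ind ((0 : ZMod n), φe)) (v, φ) w : ℤ) :
      ZMod n) = at_ xe (fun u => (-v) * ((ind ((0 : ZMod n), φe)
        (u.foldl (st r n wt) (v, φ)) : ℤ) : ZMod n)) w := by
    intro v
    rw [W_eq_at]
    exact at_hom ((AddMonoidHom.mulLeft (-v)).comp (Int.castAddHom (ZMod n))) xe _ w
  rw [Finset.sum_congr rfl fun v _ => k3 v, ← at_sum]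
  refine at_congr (fun u => ?_) w
  rw [Finset.sum_congr rfl fun v _ => by rw [fold_st]]
  by_cases h3 : u.foldl (nx r) φ = φe
  · rw [if_pos h3, Finset.sum_eq_single (-(Dc r wt φ u : ZMod n))]
    · rw [neg_neg, neg_add_cancel, h3, ind_self, Int.cast_one, mul_one]; rfl
    · intro v _ hv
      rw [ind_ne, Int.cast_zero, mul_zero]
      intro h4
      apply hv
      have h5 : v + (Dc r wt φ u : ZMod n) = 0 := congrArg Prod.fst h4
      exact eq_neg_of_add_eq_zero_left h5
    · intro h; exact absurd (Finset.mem_univ _) h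
  · rw [if_neg h3, map_zero]
    apply Finset.sum_eq_zero
    intro v _
    rw [ind_ne, Int.cast_zero, mul_zero]
    intro h4
    exact h3 (congrArg Prod.snd h4)

/-- number of silent moves -/
theorem num_known [Finite α] (h1 : C1 r wt) {c : α → Bool} (h2 : C2 r wt c)
    {φe : Option α} {xe : α} (hw : wt φe xe = false) (hn : nx r φe xe = none)
    (φ : Option α) : KnZ (atp r φ φe xe fun _ => 1) := by
  classical
  refine (vis_known (n := 1) h1 h2 hw hn (0, φ)).congr fun w => ?_
  rw [W_eq_at, atp]
  refine at_congr (fun u => ?_) w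
  rw [fold_st]
  by_cases h3 : u.foldl (nx r) φ = φe
  · rw [if_pos h3, h3, show ((0 : ZMod 1) + (Dc r wt φ u : ZMod 1)) = 0 from
      Subsingleton.elim _ _, ind_self]
  · rw [if_neg h3, ind_ne]
    intro h4
    exact h3 (congrArg Prod.snd h4)

open Classical in
/-- number of moves of one kind -/
noncomputable def Nm (r : α → Bool) (φ φg : Option α) (xg : α) : List α → ℤ :=
  atp r φ φg xg fun _ => 1

theorem atp_sub (φ φe : Option α) (xe : α) (F G : List α → ℤ) (w : List α) :
    atp r φ φe xe (fun u => F u - G u) w = atp r φ φe xe F w - atp r φ φe xe G w := by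
  classical
  rw [eq_sub_iff_add_eq]
  unfold atp
  rw [← at_add]
  refine at_congr (fun u => ?_) w
  by_cases h : u.foldl (nx r) φ = φe
  · rw [if_pos h, if_pos h, if_pos h]; ring
  · rw [if_neg h, if_neg h, if_neg h]; ring

theorem Dc_sub {wt0 wt1 : Option α → α → Bool} {φg : Option α} {xg : α}
    (h : ∀ φ x, (if wt0 φ x = true then (1 : ℤ) else 0) =
      (if wt1 φ x = true then 1 else 0) + (by classical exact if φ = φg ∧ x = xg then 1 else 0))
    (φ : Option α) (u : List α) : Dc r wt0 φ u - Dc r wt1 φ u = Nm r φ φg xg u := by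
  classical
  rw [sub_eq_iff_eq_add, Nm, atp, at_, Dc, Dc, ← sm_add]
  refine sm_congr (fun v x => ?_) u
  rw [h, add_comm]
  congr 1
  by_cases h1 : x = xg
  · rw [if_pos h1]
    by_cases h2 : v.foldl (nx r) φ = φg
    · rw [if_pos h2, if_pos ⟨h2, h1⟩]
    · rw [if_neg h2, if_neg fun h3 => h2 h3.1]
  · rw [if_neg h1, if_neg fun h3 => h1 h3.2]

theorem pair_gen [Finite α] {wt0 wt1 : Option α → α → Bool} (a0 : C1 r wt0) (a1 : C1 r wt1)
    {c0 c1 : α → Bool} (b0 : C2 r wt0 c0) (b1 : C2 r wt1 c1) {φe : Option α} {xe : α}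
    (hw0 : wt0 φe xe = false) (hw1 : wt1 φe xe = false) (hn : nx r φe xe = none)
    {φg : Option α} {xg : α} (h : ∀ φ x, (if wt0 φ x = true then (1 : ℤ) else 0) =
      (if wt1 φ x = true then 1 else 0) + (by classical exact if φ = φg ∧ x = xg then 1 else 0))
    (φ : Option α) : KnZ (atp r φ φe xe (Nm r φ φg xg)) := by
  refine ((cnt_known a0 b0 hw0 hn φ).sub (cnt_known a1 b1 hw1 hn φ)).congr fun w => ?_
  rw [← atp_sub]
  have : Nm r φ φg xg = fun u => Dc r wt0 φ u - Dc r wt1 φ u :=
    funext fun u => (Dc_sub h φ u).symm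
  rw [this]

end Vale.Agent.P329.H265
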