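import Vale.Agent.P329.H265.AllN
import Vale.Agent.P329.H559.Kw

/-!
# P329 / context products in finite abelian groups, with any clock
-/

set_option linter.all false

namespace Vale.Agent.P329.H265.AllN

open Vale.Agent.P329 Vale.Agent.P329.H67

variable {α : Type}

open Classical in
/-- the value in terms of the window -/
noncomputable def Gv {m : ℕ} (n c : ℕ) (t : List α → α → ZMod m) (r : ℕ)
    (W : Fin (c + 1) → Option α) : ℤ :=
  if h : ∃ x : α × List α, (x.2.length + 1) % n = r ∧ win (c + 1) (x.1 :: x.2) = W then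
    ((t h.choose.2 h.choose.1).val : ℤ) else 0

theorem Gv_eq {m n c : ℕ} {t : List α → α → ZMod m}
    (ht : ∀ X Y b, X.length % n = Y.length % n → X.take c = Y.take c → t X b = t Y b)
    (X : List α) (b : α) :
    Gv n c t ((X.length + 1) % n) (win (c + 1) (b :: X)) = ((t X b).val : ℤ) := by
  have h : ∃ x : α × List α, (x.2.length + 1) % n = (X.length + 1) % n ∧
      win (c + 1) (x.1 :: x.2) = win (c + 1) (b :: X) := ⟨(b, X), rfl, rfl⟩
  have h0 : Gv n c t ((X.length + 1) % n) (win (c + 1) (b :: X)) =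
      ((t h.choose.2 h.choose.1).val : ℤ) := dif_pos h
  rw [h0]
  obtain ⟨h1, h2⟩ := h.choose_spec
  have h3 : h.choose.1 = b := by
    have h4 := congrFun h2 ⟨0, Nat.succ_pos c⟩
    exact Option.some.inj h4
  have h4 : h.choose.2.take c = X.take c := by
    apply List.ext_getElem?
    intro i
    rw [List.getElem?_take, List.getElem?_take]
    by_cases hi : i < c
    · rw [if_pos hi, if_pos hi]
      exact congrFun h2 ⟨i + 1, by omega⟩
    · rw [if_neg hi, if_neg hi]
  have h5 : h.choose.2.length % n = X.length % n := Nat.ModEq.add_right_cancel' 1 h1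
  rw [h3, ht _ _ b h5 h4]

theorem KSn (m : ℕ) [NeZero m] [Finite α] {n : ℕ} (hn : 0 < n) (c : ℕ) (t : List α → α → ZMod m)
    (ht : ∀ X Y b, X.length % n = Y.length % n → X.take c = Y.take c → t X b = t Y b) :
    Kn fun w : List α => H559.SS t w.reverse := by
  have h1 := stBn (α := α) hn (fun e (W : Fin (c + 1) → Option α) => Gv n c t (e % n) W)
    (fun e W => by rw [Nat.add_mod_right]) m (Nat.pos_of_ne_zero (NeZero.ne m))
  have h2 : ∀ X : List α, ((oc (c + 1) (fun e (W : Fin (c + 1) → Option α) =>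
      Gv n c t (e % n) W) X : ℤ) : ZMod m) = H559.SS t X := by
    intro X
    induction X with
    | nil => exact Int.cast_zero
    | cons b X ih =>
      rw [oc, Int.cast_add, ih, H559.SS, Gv_eq ht]
      congr 1
      rw [Int.cast_natCast, ZMod.natCast_zmod_val]
  intro v
  refine Eq.mp (congrArg (SH 1) ?_) (h1 v)
  ext w
  beta_reduce
  rw [Set.mem_ofPred_eq, Set.mem_ofPred_eq, h2]

theorem ctxK_zmod {n : ℕ} (hn : 0 < n) (m : ℕ) (hm : m ≠ 0) :
    H434.CtxK n (Multiplicative (ZMod m)) := by
  intro α _ c χ hχ S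
  haveI : NeZero m := ⟨hm⟩
  have h1 := KSn m hn c (fun X b => (χ X b).toAdd) fun X Y b h h' => by rw [hχ X Y b h h']
  have h2 := H434.kn_set h1 {x | Multiplicative.ofAdd x ∈ S}
  refine Eq.mp (congrArg (SH 1) ?_) h2
  ext w
  change Multiplicative.ofAdd (H559.SS (fun X b => (χ X b).toAdd) w.reverse) ∈ S ↔
    H157.hp χ w.reverse ∈ S
  rw [H559.hp_SS]

/-- **context products in finite abelian groups, with any clock** -/
theorem ctxK_all {n : ℕ} (hn : 0 < n) {G : Type} [Group G] [Finite G]
    (hG : ∀ a b : G, a * b = b * a) : H434.CtxK n G := by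
  letI : CommGroup G := { (inferInstance : Group G) with mul_comm := hG }
  obtain ⟨ι, hι, m, hm, ⟨e⟩⟩ := CommGroup.equiv_prod_multiplicative_zmod_of_finite G
  haveI : ∀ i, NeZero (m i) := fun i => ⟨by have := hm i; omega⟩
  exact (H434.CtxK.pi fun i => ctxK_zmod hn (m i) (by have := hm i; omega)).equiv e.symm

theorem locK_all {n : ℕ} (hn : 0 < n) : H434.LocK n := by
  haveI : Fact (Nat.Prime 2) := ⟨Nat.prime_two⟩
  exact H434.LocK.of_ctx (p := 2) (ctxK_zmod hn 2 (by norm_num))

end Vale.Agent.P329.H265.AllN
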