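import Vale.Agent.P329.H265.Pair

/-! The sum of the products of the signs over all pairs of positions of two letters. -/

namespace Vale.Agent.P329.H265

open Vale.Agent.P329 Vale.Agent.P329.S4

variable {α : Type} (r : α → Bool)

/-- sign of the number of reflections -/
def rho (u : List α) : ℤ := if par r u = true then -1 else 1

/-- signed count of a letter -/
noncomputable def X (a : α) (u : List α) : ℤ := at_ a (rho r) u

/-- the sum of `sign i * sign j` over the positions `i < j` with the letters `a` and `b` -/
noncomputable def F11 (a b : α) (w : List α) : ℤ := at_ b (fun u => rho r u * X r a u) w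

/-- sign of a pending state -/
def sg (φ : Option α) : ℤ := if φ.isSome = true then -1 else 1

variable {r}

theorem par_snoc (u : List α) (x : α) : par r (u ++ [x]) = xor (par r u) (r x) := by
  rw [par, List.foldl_append]; rfl

theorem rho_sq (u : List α) : rho r u * rho r u = 1 := by
  unfold rho
  by_cases h : par r u = true
  · rw [if_pos h]; norm_num
  · rw [if_neg h]; norm_num

theorem sg_rho (φ : Option α) (u : List α) : sg φ * rho r u = sg (u.foldl (nx r) φ) := by
  unfold sg rho
  rw [fold_isSome]
  cases φ.isSome <;> cases par r u <;> simp

open Classical in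
theorem X_snoc (a : α) (u : List α) (x : α) :
    X r a (u ++ [x]) = X r a u + if x = a then rho r u else 0 := at_snoc _ _ _ _

open Classical in
theorem F_snoc (a b : α) (u : List α) (x : α) :
    F11 r a b (u ++ [x]) = F11 r a b u + if x = b then rho r u * X r a u else 0 := at_snoc _ _ _ _

theorem fin_ev {n : ℕ} {wt T : Option α → α → Bool} (w : List α) (s : ZMod n × Option α) :
    fin (ev r n wt T) (0, none) s w = w.foldl (st r n wt) s := by
  induction w generalizing s with
  | nil => rfl
  | cons y w ih =>
    by_cases h0 : st r n wt s y = (0, none) ∧ (wt s.2 y = true ∨ T s.2 y = true)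
    · rw [fin_cons_none w (if_pos h0), ih, List.foldl_cons, h0.1]
    · rw [fin_cons_some w (if_neg h0), ih, List.foldl_cons]

theorem ph_known [Finite α] (φ : Option α) : Kn fun w : List α => w.foldl (nx r) φ := by
  have h := Kn.of_event (ev_noCyc (r := r) (n := 1) (T := fun _ _ => false)
    (mk_C1 r (fun _ => false) fun _ _ => false) (c := fun _ => false)
    (mk_C2 r (fun _ => false) (Z := fun _ _ => false) fun _ _ h => by cases h)) (0, none) (0, φ)
  refine Eq.mp (congrArg Kn ?_) (h.comp Prod.snd)
  funext w
  rw [fin_ev, fold_st]

open Classical in
/-- the part of the signed count coming from the closed pairs -/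
noncomputable def Xb [Fintype α] (r : α → Bool) (φ : Option α) (a : α) (u : List α) : ℤ :=
  ∑ x', if x' = a then 0 else
    ((if r x' = true then Nm r φ (some a) x' u else 0) - Nm r φ (some x') a u)

open Classical in
theorem Xb_snoc [Fintype α] {a : α} (ha : r a = true) (φ : Option α) (u : List α) (x : α) :
    Xb r φ a (u ++ [x]) = Xb r φ a u +
      (match u.foldl (nx r) φ with
        | none => 0
        | some z => if r x = true then (if z = a then (if x = a then 0 else 1)
            else (if x = a then -1 else 0)) else 0) := by
  unfold Xb
  have h : ∀ x', (if x' = a then 0 else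
      ((if r x' = true then Nm r φ (some a) x' (u ++ [x]) else 0) -
        Nm r φ (some x') a (u ++ [x]))) = (if x' = a then 0 else
      ((if r x' = true then Nm r φ (some a) x' u else 0) - Nm r φ (some x') a u)) +
      (if x' = a then 0 else ((if r x' = true then
        (if x = x' ∧ u.foldl (nx r) φ = some a then 1 else 0) else 0) -
        (if x = a ∧ u.foldl (nx r) φ = some x' then (1 : ℤ) else 0))) := by
    intro x'
    by_cases h1 : x' = a
    · rw [if_pos h1, if_pos h1, if_pos h1, add_zero]
    · rw [if_neg h1, if_neg h1, if_neg h1, Nm_snoc, Nm_snoc]
      by_cases h2 : r x' = true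
      · rw [if_pos h2, if_pos h2, if_pos h2]
        have e : ∀ p : Prop, ∀ (i j : Decidable p), @ite ℤ p i 1 0 = @ite ℤ p j 1 0 := by
          intro p i j; congr
        rw [e _ _ (Classical.propDecidable _), e (x = a ∧ _) _ (Classical.propDecidable _)]
        ring
      · rw [if_neg h2, if_neg h2, if_neg h2]
        ring
  rw [Finset.sum_congr rfl fun x' _ => h x', Finset.sum_add_distrib]
  congr 1
  generalize u.foldl (nx r) φ = ψ
  rcases ψ with _ | z
  · apply Finset.sum_eq_zero
    intro x' _
    simp
  · show _ = if r x = true then (if z = a then (if x = a then 0 else 1)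
            else (if x = a then -1 else 0)) else (0 : ℤ)
    by_cases hr : r x = true
    · rw [if_pos hr]
      by_cases hz : z = a
      · rw [if_pos hz]
        by_cases hx : x = a
        · rw [if_pos hx]
          apply Finset.sum_eq_zero
          intro x' _
          by_cases h1 : x' = a
          · rw [if_pos h1]
          · have h2 : ¬ x = x' := fun h => h1 (by rw [← h, hx])
            have h3 : ¬ z = x' := fun h => h1 (by rw [← h, hz])
            simp [h1, h2, h3]
        · rw [if_neg hx, Finset.sum_eq_single x]
          · simp [hx, hr, hz]
          · intro x' _ hx'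
            have h2 : ¬ x = x' := fun h => hx' h.symm
            simp [h2, hx]
          · intro h; exact absurd (Finset.mem_univ _) h
      · rw [if_neg hz]
        by_cases hx : x = a
        · rw [if_pos hx, Finset.sum_eq_single z]
          · simp [hx, hz]
          · intro x' _ hx'
            have h2 : ¬ z = x' := fun h => hx' h.symm
            by_cases h1 : x' = a
            · rw [if_pos h1]
            · simp [h1, h2, hz]
          · intro h; exact absurd (Finset.mem_univ _) h
        · rw [if_neg hx]
          apply Finset.sum_eq_zero
          intro x' _
          simp [hx, hz]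
    · rw [if_neg hr]
      have hx : ¬ x = a := fun h => hr (by rw [h]; exact ha)
      apply Finset.sum_eq_zero
      intro x' _
      by_cases h1 : x' = a
      · rw [if_pos h1]
      · by_cases h2 : r x' = true
        · have h3 : ¬ x = x' := fun h => hr (by rw [h]; exact h2)
          simp [h1, h3, hx]
        · simp [h1, h2, hx]

open Classical in
theorem X_eq [Fintype α] {a : α} (ha : r a = true) (φ : Option α) (u : List α) :
    sg φ * X r a u = Xb r φ a u + (if u.foldl (nx r) φ = some a then 1 else 0) -
      (if φ = some a then 1 else 0) := by
  induction u using List.reverseRecOn with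
  | nil =>
    have h1 : Xb r φ a [] = 0 := by
      unfold Xb
      apply Finset.sum_eq_zero
      intro x' _
      have h2 : ∀ φg xg, Nm r φ φg xg ([] : List α) = 0 := fun _ _ => rfl
      rw [h2, h2, ite_self, sub_zero, ite_self]
    rw [h1, X, at_nil, mul_zero, List.foldl_nil]; ring
  | append_singleton u x ih =>
    rw [X_snoc, mul_add, ih, Xb_snoc ha, List.foldl_append, List.foldl_cons, List.foldl_nil]
    have h1 : sg φ * (if x = a then rho r u else 0) =
        if x = a then sg (u.foldl (nx r) φ) else 0 := by
      by_cases hx : x = a
      · rw [if_pos hx, if_pos hx, sg_rho]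
      · rw [if_neg hx, if_neg hx, mul_zero]
    rw [h1]
    generalize u.foldl (nx r) φ = ψ
    cases hr : r x
    · have hx : ¬ x = a := fun h => by rw [h, ha] at hr; cases hr
      rw [nx_pos hr, if_neg hx]
      rcases ψ with _ | z
      · simp
      · simp
    · rcases ψ with _ | z
      · rw [nx_none hr]
        by_cases hx : x = a
        · simp [hx, sg]; ring
        · simp [hx]
      · rw [nx_some hr]
        by_cases hz : z = a
        · by_cases hx : x = a
          · simp [hx, hz, sg]; ring
          · simp [hx, hz]
        · by_cases hx : x = a
          · simp [hx, hz, sg]; ring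
          · simp [hx, hz]

end Vale.Agent.P329.H265
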