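import Vale.Agent.P329.H265.F11

/-! The signed pair counts are known. -/

namespace Vale.Agent.P329.H265

open Vale.Agent.P329 Vale.Agent.P329.S4

variable {α : Type} {r : α → Bool}

/-! ### linearity -/

theorem atp_congr {φ φe : Option α} {xe : α} {F G : List α → ℤ}
    (h : ∀ u, u.foldl (nx r) φ = φe → F u = G u) (w : List α) :
    atp r φ φe xe F w = atp r φ φe xe G w := by
  classical
  unfold atp
  refine at_congr (fun u => ?_) w
  by_cases h1 : u.foldl (nx r) φ = φe
  · rw [if_pos h1, if_pos h1, h u h1]
  · rw [if_neg h1, if_neg h1]

theorem atp_add (φ φe : Option α) (xe : α) (F G : List α → ℤ) (w : List α) :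
    atp r φ φe xe (fun u => F u + G u) w = atp r φ φe xe F w + atp r φ φe xe G w := by
  classical
  unfold atp
  rw [← at_add]
  refine at_congr (fun u => ?_) w
  by_cases h : u.foldl (nx r) φ = φe
  · rw [if_pos h, if_pos h, if_pos h]
  · rw [if_neg h, if_neg h, if_neg h, add_zero]

theorem atp_sum {ι : Type} (s : Finset ι) (φ φe : Option α) (xe : α) (F : ι → List α → ℤ)
    (w : List α) : atp r φ φe xe (fun u => ∑ i ∈ s, F i u) w = ∑ i ∈ s, atp r φ φe xe (F i) w := by
  classical
  unfold atp
  rw [← at_sum]
  refine at_congr (fun u => ?_) w
  by_cases h : u.foldl (nx r) φ = φe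
  · rw [if_pos h]
    exact Finset.sum_congr rfl fun i _ => by rw [if_pos h]
  · rw [if_neg h]
    symm
    apply Finset.sum_eq_zero
    intro i _
    rw [if_neg h]

theorem atp_mul (c : ℤ) (φ φe : Option α) (xe : α) (F : List α → ℤ) (w : List α) :
    atp r φ φe xe (fun u => c * F u) w = c * atp r φ φe xe F w := by
  classical
  unfold atp
  have h := at_hom (AddMonoidHom.mulLeft c) xe
    (fun u => if u.foldl (nx r) φ = φe then F u else 0) w
  refine Eq.trans (at_congr (fun u => ?_) w) h.symm
  show _ = c * _
  by_cases h : u.foldl (nx r) φ = φe
  · rw [if_pos h, if_pos h]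
  · rw [if_neg h, if_neg h, mul_zero]

theorem atp_zero (φ φe : Option α) (xe : α) (w : List α) :
    atp r φ φe xe (fun _ => 0) w = 0 := by
  classical
  unfold atp
  have h := at_zero (B := ℤ) xe w
  refine Eq.trans (at_congr (fun u => ?_) w) h
  rw [ite_self]

open Classical in
theorem atp_Xb [Finite α] [Fintype α] {φ φe : Option α} {xe a : α}
    (h1 : ∀ x', x' ≠ a → r x' = true → KnZ (atp r φ φe xe (Nm r φ (some a) x')))
    (h2 : ∀ x', x' ≠ a → KnZ (atp r φ φe xe (Nm r φ (some x') a))) :
    KnZ (atp r φ φe xe (Xb r φ a)) := by
  have h3 : KnZ fun w => ∑ x' : α, (if x' = a then 0 else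
      ((if r x' = true then atp r φ φe xe (Nm r φ (some a) x') w else 0) -
        atp r φ φe xe (Nm r φ (some x') a) w)) := by
    refine KnZ.sum _ fun x' _ => ?_
    by_cases hx : x' = a
    · refine (KnZ.const 0).congr fun w => ?_
      rw [if_pos hx]
    · by_cases hr : r x' = true
      · refine ((h1 x' hx hr).sub (h2 x' hx)).congr fun w => ?_
        rw [if_neg hx, if_pos hr]
      · refine ((KnZ.const 0).sub (h2 x' hx)).congr fun w => ?_
        rw [if_neg hx, if_neg hr]
  refine h3.congr fun w => ?_
  unfold Xb
  rw [atp_sum]
  refine Finset.sum_congr rfl fun x' _ => ?_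
  by_cases hx : x' = a
  · rw [if_pos hx]
    refine Eq.trans (atp_congr (fun u _ => ?_) w) (atp_zero _ _ _ w)
    rw [if_pos hx]
  · rw [if_neg hx]
    by_cases hr : r x' = true
    · rw [if_pos hr, ← atp_sub]
      refine atp_congr (fun u _ => ?_) w
      rw [if_neg hx, if_pos hr]
    · rw [if_neg hr]
      have h4 := atp_sub (r := r) φ φe xe (fun _ => 0) (Nm r φ (some x') a) w
      rw [atp_zero] at h4
      rw [← h4]
      refine atp_congr (fun u _ => ?_) w
      rw [if_neg hx, if_neg hr]

open Classical in
theorem Xb_known [Finite α] [Fintype α] {a : α} (ha : r a = true) (φ : Option α) :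
    KnZ (Xb r φ a) := by
  unfold Xb
  refine KnZ.sum _ fun x' _ => ?_
  by_cases hx : x' = a
  · refine (KnZ.const 0).congr fun w => ?_
    rw [if_pos hx]
  · by_cases hr : r x' = true
    · refine ((num_b hr (Ne.symm hx) φ).sub (num_b ha hx φ)).congr fun w => ?_
      rw [if_neg hx, if_pos hr]
    · refine ((KnZ.const 0).sub (num_b ha hx φ)).congr fun w => ?_
      rw [if_neg hx, if_neg hr]

/-! ### two reflections -/

open Classical in
theorem FF [Fintype α] {a b : α} (ha : r a = true) (hb : r b = true) (hab : a ≠ b)
    (w : List α) : F11 r a b w =
      (∑ y, if y ≠ b ∧ r y = true then atp r none (some b) y (Xb r none a) w else 0) -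
      (∑ y, if y ≠ b then atp r none (some y) b
        (fun u => Xb r none a u + if y = a then 1 else 0) w else 0) +
      (if w.foldl (nx r) none = some b then Xb r none a w else 0) := by
  induction w using List.reverseRecOn with
  | nil =>
    have h1 : ∀ φe xe F, atp r none φe xe F ([] : List α) = 0 := fun _ _ _ => rfl
    rw [Finset.sum_eq_zero, Finset.sum_eq_zero, List.foldl_nil, if_neg (by simp), F11, at_nil]
    · ring
    · intro y _
      rw [h1, ite_self]
    · intro y _
      rw [h1, ite_self]
  | append_singleton w x ih =>
    have e1 : ∀ y, (if y ≠ b ∧ r y = true then atp r none (some b) y (Xb r none a) (w ++ [x])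
        else 0) = (if y ≠ b ∧ r y = true then atp r none (some b) y (Xb r none a) w else 0) +
        (if y ≠ b ∧ r y = true ∧ x = y ∧ w.foldl (nx r) none = some b then Xb r none a w
          else 0) := by
      intro y
      by_cases h1 : y ≠ b ∧ r y = true
      · rw [if_pos h1, if_pos h1, atp_snoc]
        congr 1
        by_cases h2 : x = y ∧ w.foldl (nx r) none = some b
        · rw [if_pos h2, if_pos ⟨h1.1, h1.2, h2.1, h2.2⟩]
        · rw [if_neg h2, if_neg fun h => h2 ⟨h.2.2.1, h.2.2.2⟩]
      · rw [if_neg h1, if_neg h1, if_neg fun h => h1 ⟨h.1, h.2.1⟩, add_zero]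
    have e2 : ∀ y, (if y ≠ b then atp r none (some y) b
        (fun u => Xb r none a u + if y = a then 1 else 0) (w ++ [x]) else 0) =
        (if y ≠ b then atp r none (some y) b
          (fun u => Xb r none a u + if y = a then 1 else 0) w else 0) +
        (if y ≠ b ∧ x = b ∧ w.foldl (nx r) none = some y then
          (Xb r none a w + if y = a then 1 else 0) else 0) := by
      intro y
      by_cases h1 : y ≠ b
      · rw [if_pos h1, if_pos h1, atp_snoc]
        congr 1
        by_cases h2 : x = b ∧ w.foldl (nx r) none = some y
        · have h3 : y ≠ b ∧ x = b ∧ w.foldl (nx r) none = some y := ⟨h1, h2.1, h2.2⟩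
          rw [if_pos h2, if_pos h3]
        · have h3 : ¬ (y ≠ b ∧ x = b ∧ w.foldl (nx r) none = some y) := fun h => h2 h.2
          rw [if_neg h2, if_neg h3]
      · rw [if_neg h1, if_neg h1, if_neg fun h => h1 h.1, add_zero]
    rw [Finset.sum_congr rfl fun y _ => e1 y, Finset.sum_congr rfl fun y _ => e2 y,
      Finset.sum_add_distrib, Finset.sum_add_distrib, F_snoc, ih, Xb_snoc ha, List.foldl_append,
      List.foldl_cons, List.foldl_nil]
    have hX := X_eq ha none w
    have hsg : sg (none : Option α) = 1 := rfl
    rw [hsg, one_mul, if_neg (by simp : ¬ (none : Option α) = some a), sub_zero] at hX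
    have hrho := sg_rho (r := r) none w
    rw [hsg, one_mul] at hrho
    rw [hX, hrho]
    generalize w.foldl (nx r) none = ψ
    rcases ψ with _ | z
    · have s1 : (∑ y, if y ≠ b ∧ r y = true ∧ x = y ∧ (none : Option α) = some b then
          Xb r none a w else 0) = 0 := by
        apply Finset.sum_eq_zero; intro y _; simp
      have s2 : (∑ y, if y ≠ b ∧ x = b ∧ (none : Option α) = some y then
          (Xb r none a w + if y = a then 1 else 0) else 0) = 0 := by
        apply Finset.sum_eq_zero; intro y _; simp
      rw [s1, s2]
      cases hr : r x
      · have hx : ¬ x = b := fun h => by rw [h, hb] at hr; cases hr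
        rw [nx_pos hr]
        simp [hx]
      · rw [nx_none hr]
        by_cases hx : x = b
        · simp [hx, sg]
        · simp [hx]
    · cases hr : r x
      · have hx : ¬ x = b := fun h => by rw [h, hb] at hr; cases hr
        have s1 : (∑ y, if y ≠ b ∧ r y = true ∧ x = y ∧ some z = some b then
            Xb r none a w else 0) = 0 := by
          apply Finset.sum_eq_zero
          intro y _
          rw [if_neg]
          rintro ⟨-, h1, h2, -⟩
          rw [← h2, hr] at h1; cases h1
        have s2 : (∑ y, if y ≠ b ∧ x = b ∧ some z = some y then
            (Xb r none a w + if y = a then 1 else 0) else 0) = 0 := by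
          apply Finset.sum_eq_zero; intro y _; simp [hx]
        rw [s1, s2, nx_pos hr]
        simp [hx]
      · rw [nx_some hr]
        by_cases hz : z = b
        · have hza : ¬ z = a := fun h => hab (by rw [← h, hz])
          have s2 : (∑ y, if y ≠ b ∧ x = b ∧ some z = some y then
              (Xb r none a w + if y = a then 1 else 0) else 0) = 0 := by
            apply Finset.sum_eq_zero
            intro y _
            rw [if_neg]
            rintro ⟨h1, -, h2⟩
            exact h1 (by rw [← Option.some.inj h2, hz])
          rw [s2]
          by_cases hx : x = b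
          · have s1 : (∑ y, if y ≠ b ∧ r y = true ∧ x = y ∧ some z = some b then
                Xb r none a w else 0) = 0 := by
              apply Finset.sum_eq_zero
              intro y _
              rw [if_neg]
              rintro ⟨h1, -, h2, -⟩
              exact h1 (by rw [← h2, hx])
            rw [s1]
            have hba : ¬ b = a := fun h => hab h.symm
            simp [hx, hz, hba, sg]
          · have s1 : (∑ y, if y ≠ b ∧ r y = true ∧ x = y ∧ some z = some b then
                Xb r none a w else 0) = Xb r none a w := by
              rw [Finset.sum_eq_single x]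
              · rw [if_pos ⟨hx, hr, rfl, by rw [hz]⟩]
              · intro y _ hy
                rw [if_neg]
                rintro ⟨-, -, h2, -⟩
                exact hy h2.symm
              · intro h; exact absurd (Finset.mem_univ _) h
            rw [s1]
            simp [hx, hz]
            ring
        · have s1 : (∑ y, if y ≠ b ∧ r y = true ∧ x = y ∧ some z = some b then
              Xb r none a w else 0) = 0 := by
            apply Finset.sum_eq_zero
            intro y _
            rw [if_neg]
            rintro ⟨-, -, -, h2⟩
            exact hz (Option.some.inj h2)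
          rw [s1]
          by_cases hx : x = b
          · have s2 : (∑ y, if y ≠ b ∧ x = b ∧ some z = some y then
                (Xb r none a w + if y = a then 1 else 0) else 0) =
                Xb r none a w + if z = a then 1 else 0 := by
              rw [Finset.sum_eq_single z]
              · rw [if_pos ⟨hz, hx, rfl⟩]
              · intro y _ hy
                rw [if_neg]
                rintro ⟨-, -, h2⟩
                exact hy (Option.some.inj h2).symm
              · intro h; exact absurd (Finset.mem_univ _) h
            rw [s2]
            by_cases hza : z = a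
            · simp [hx, hza, hab, sg]; ring
            · simp [hx, hz, hza, sg]; ring
          · have s2 : (∑ y, if y ≠ b ∧ x = b ∧ some z = some y then
                (Xb r none a w + if y = a then 1 else 0) else 0) = 0 := by
              apply Finset.sum_eq_zero; intro y _; simp [hx]
            rw [s2]
            simp [hx, hz]

end Vale.Agent.P329.H265
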