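import Vale.Agent.P329.H265.Fin

/-! The signed pair counts of any two letters are known modulo every positive integer. -/

namespace Vale.Agent.P329.H265

open Vale.Agent.P329 Vale.Agent.P329.S4

variable {α : Type} {r : α → Bool}

open Classical in
theorem refl_refl [Finite α] {a b : α} (ha : r a = true) (hb : r b = true) (hab : a ≠ b) :
    KnZ (F11 r a b) := by
  have := Fintype.ofFinite α
  have h1 : KnZ fun w => (∑ y, if y ≠ b ∧ r y = true then
      atp r none (some b) y (Xb r none a) w else 0) := by
    refine KnZ.sum _ fun y _ => ?_
    by_cases hy : y ≠ b ∧ r y = true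
    · refine (atp_Xb (r := r) (φ := none) (φe := some b) (xe := y) (a := a) ?_ ?_).congr
        fun w => ?_
      · intro x' hx hr
        exact pair_bb' hy.2 hr (Ne.symm hy.1) (Ne.symm hx) none
      · intro x' hx
        exact pair_bb' hy.2 ha (Ne.symm hy.1) hx none
      · rw [if_pos hy]
    · refine (KnZ.const 0).congr fun w => ?_
      rw [if_neg hy]
  have h2 : KnZ fun w => (∑ y, if y ≠ b then atp r none (some y) b
        (fun u => Xb r none a u + if y = a then 1 else 0) w else 0) := by
    refine KnZ.sum _ fun y _ => ?_
    by_cases hy : y ≠ b
    · have k1 : KnZ (atp r none (some y) b (Xb r none a)) :=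
        atp_Xb (fun x' hx hr => pair_bb' hb hr hy (Ne.symm hx) none)
          (fun x' hx => pair_bb' hb ha hy hx none)
      have k2 : KnZ (atp r none (some y) b fun _ => if y = a then 1 else 0) := by
        by_cases hya : y = a
        · refine (num_b (r := r) hb hy none).congr fun w => ?_
          exact atp_congr (fun u _ => if_pos hya) w
        · refine (KnZ.const 0).congr fun w => ?_
          exact (atp_congr (fun u _ => if_neg hya) w).trans (atp_zero _ _ _ w)
      refine (k1.add k2).congr fun w => ?_
      rw [if_pos hy, atp_add]
    · refine (KnZ.const 0).congr fun w => ?_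
      rw [if_neg hy]
  have h3 : KnZ fun w : List α => if w.foldl (nx r) none = some b then Xb r none a w else 0 := by
    have k1 : KnZ fun w : List α => (if w.foldl (nx r) none = some b then (1 : ℤ) else 0) :=
      KnZ.of_kn (ph_known none) fun ψ => if ψ = some b then 1 else 0
    refine (k1.mul (Xb_known ha none)).congr fun w => ?_
    by_cases h : w.foldl (nx r) none = some b
    · rw [if_pos h, if_pos h, one_mul]
    · rw [if_neg h, if_neg h, zero_mul]
  exact ((h1.sub h2).add h3).congr fun w => FF ha hb hab w

/-- number of the positions of a letter -/
noncomputable def na (a : α) (u : List α) : ℤ := at_ a (fun _ => (1 : ℤ)) u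

open Classical in
theorem na_snoc (a : α) (u : List α) (x : α) :
    na a (u ++ [x]) = na a u + if x = a then 1 else 0 := at_snoc _ _ _ _

theorem fold_triv (u : List α) : u.foldl (nx fun _ : α => false) none = none := by
  induction u with
  | nil => rfl
  | cons x u ih =>
    rw [List.foldl_cons, nx_pos rfl]; exact ih

theorem na_eq (a : α) (u : List α) : na a u = Nm (fun _ => false) none none a u := by
  classical
  unfold na Nm atp
  exact at_congr (fun v => (if_pos (fold_triv v)).symm) u

theorem na_known [Finite α] (a : α) : KnZ (na a) :=
  (num_p (r := fun _ : α => false) rfl none).congr fun u => na_eq a u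

theorem F00_known [Finite α] {a b : α} (hab : a ≠ b) : KnZ (at_ b (na a)) := by
  classical
  refine (pair_pp (r := fun _ : α => false) (q := b) (p := a) rfl rfl hab none).congr
    fun u => ?_
  unfold atp
  refine at_congr (fun v => ?_) u
  rw [if_pos (fold_triv v), na_eq]

theorem two_Nm (φ : Option α) (a : α) (u : List α) :
    na a u + sg φ * X r a u = 2 * Nm r φ none a u := by
  classical
  induction u using List.reverseRecOn with
  | nil =>
    have h1 : Nm r φ none a ([] : List α) = 0 := rfl
    rw [na, at_nil, X, at_nil, h1]; ring
  | append_singleton u x ih =>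
    have h2 := sg_rho (r := r) φ u
    rw [na_snoc, X_snoc, Nm_snoc]
    generalize u.foldl (nx r) φ = ψ at h2 ⊢
    by_cases hx : x = a
    · rw [if_pos hx, if_pos hx]
      rcases ψ with _ | z
      · rw [if_pos ⟨hx, rfl⟩]
        have h3 : sg (none : Option α) = 1 := rfl
        rw [h3] at h2
        linear_combination ih + h2
      · rw [if_neg (by simp)]
        have h3 : sg (some z) = -1 := rfl
        rw [h3] at h2
        linear_combination ih + h2
    · rw [if_neg hx, if_neg hx, if_neg fun h => hx h.1]
      linear_combination ih

/-- split by the parity of the prefix -/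
theorem split_at (x0 : α) (b : α) (F : List α → ℤ) (G H : List α → ℤ)
    (h1 : ∀ u, par r u = false → F u = G u) (h2 : ∀ u, par r u = true → F u = H u)
    (w : List α) : at_ b F w = atp r none none b G w + atp r (some x0) none b H w := by
  classical
  unfold atp
  rw [← at_add]
  refine at_congr (fun u => ?_) w
  have e1 := fold_isSome (r := r) u none
  have e2 := fold_isSome (r := r) u (some x0)
  cases hp : par r u
  · rw [hp] at e1 e2
    have k1 : u.foldl (nx r) none = none := by
      rcases h : u.foldl (nx r) none with _ | z
      · rfl
      · rw [h] at e1; cases e1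
    have k2 : ¬ u.foldl (nx r) (some x0) = none := by
      intro h; rw [h] at e2; cases e2
    rw [if_pos k1, if_neg k2, add_zero, h1 u hp]
  · rw [hp] at e1 e2
    have k1 : ¬ u.foldl (nx r) none = none := by
      intro h; rw [h] at e1; cases e1
    have k2 : u.foldl (nx r) (some x0) = none := by
      rcases h : u.foldl (nx r) (some x0) with _ | z
      · rfl
      · rw [h] at e2; cases e2
    rw [if_neg k1, if_pos k2, zero_add, h2 u hp]

theorem rho_false {u : List α} (h : par r u = false) : rho r u = 1 := by
  unfold rho; rw [h]; rfl

theorem rho_true {u : List α} (h : par r u = true) : rho r u = -1 := by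
  unfold rho; rw [h]; rfl

open Classical in
theorem refl_pos [Finite α] {a b : α} (ha : r a = true) (hb : r b = false) :
    KnZ (F11 r a b) := by
  have := Fintype.ofFinite α
  have key : ∀ φ : Option α, KnZ (atp r φ none b fun u => sg φ * X r a u) := by
    intro φ
    have k1 : KnZ (atp r φ none b (Xb r φ a)) :=
      atp_Xb (fun x' hx hr => pair_pb hb hr (Ne.symm hx) φ) (fun x' hx => pair_pb hb ha hx φ)
    have k2 : KnZ fun w => (if φ = some a then (-1 : ℤ) else 0) * Nm r φ none b w := by
      exact (num_p hb φ).mul_left _
    refine (k1.add k2).congr fun w => ?_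
    have k3 : (if φ = some a then (-1 : ℤ) else 0) * Nm r φ none b w =
        atp r φ none b (fun _ => (if φ = some a then (-1 : ℤ) else 0) * 1) w := by
      rw [atp_mul]; rfl
    rw [k3, ← atp_add]
    refine atp_congr (fun u hu => ?_) w
    rw [X_eq ha, hu, if_neg (by simp : ¬ (none : Option α) = some a)]
    by_cases h : φ = some a
    · rw [if_pos h, if_pos h]; ring
    · rw [if_neg h, if_neg h]; ring
  refine ((key none).add (key (some a))).congr fun w => ?_
  exact split_at (r := r) a b _ _ _ (fun u hu => by
    rw [rho_false hu]; rfl) (fun u hu => by rw [rho_true hu]; rfl) w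

theorem prod_rule {a b : α} (hab : a ≠ b) (w : List α) :
    X r a w * X r b w = F11 r a b w + F11 r b a w := by
  classical
  induction w using List.reverseRecOn with
  | nil => rfl
  | append_singleton w x ih =>
    rw [X_snoc, X_snoc, F_snoc, F_snoc]
    by_cases hx : x = a
    · have hxb : ¬ x = b := fun h => hab (by rw [← hx, h])
      rw [if_pos hx, if_neg hxb, if_neg hxb, if_pos hx]
      linear_combination ih
    · by_cases hxb : x = b
      · rw [if_neg hx, if_pos hxb, if_pos hxb, if_neg hx]
        linear_combination ih
      · rw [if_neg hx, if_neg hxb, if_neg hxb, if_neg hx]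
        linear_combination ih

theorem self_rule (a : α) (w : List α) :
    2 * F11 r a a w = X r a w * X r a w - na a w := by
  classical
  induction w using List.reverseRecOn with
  | nil => rfl
  | append_singleton w x ih =>
    rw [X_snoc, F_snoc, na_snoc]
    by_cases hx : x = a
    · rw [if_pos hx, if_pos hx, if_pos hx]
      have h := rho_sq (r := r) w
      linear_combination ih - h
    · rw [if_neg hx, if_neg hx, if_neg hx]
      linear_combination ih

open Classical in
theorem X_known [Finite α] (a : α) : KnZ (X r a) := by
  have := Fintype.ofFinite α
  cases ha : r a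
  · refine (((num_p ha none).mul_left 2).sub (na_known a)).congr fun w => ?_
    have h := two_Nm (r := r) none a w
    have h3 : sg (none : Option α) = 1 := rfl
    rw [h3] at h
    linear_combination h
  · have k1 : KnZ fun w : List α => (if w.foldl (nx r) none = some a then (1 : ℤ) else 0) :=
      KnZ.of_kn (ph_known none) fun ψ => if ψ = some a then 1 else 0
    refine ((Xb_known ha none).add k1).congr fun w => ?_
    have h := X_eq ha none w
    have h3 : sg (none : Option α) = 1 := rfl
    rw [h3, if_neg (by simp : ¬ (none : Option α) = some a)] at h
    linear_combination h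

theorem pos_pos [Finite α] {a b : α} (ha : r a = false) (hb : r b = false) (hab : a ≠ b) :
    KnZ (F11 r a b) := by
  classical
  by_cases h0 : ∃ x0, r x0 = true
  · obtain ⟨x0, -⟩ := h0
    have k1 := (pair_pp (r := r) hb ha hab none).mul_left 2
    have k2 := (pair_pp (r := r) hb ha hab (some x0)).mul_left 2
    refine ((k1.add k2).sub (F00_known hab)).congr fun w => ?_
    rw [eq_sub_iff_add_eq, F11, ← at_add, ← atp_mul, ← atp_mul]
    refine split_at (r := r) x0 b _ _ _ (fun u hu => ?_) (fun u hu => ?_) w
    · rw [rho_false hu, ← two_Nm (r := r) none a u]
      have h3 : sg (none : Option α) = 1 := rfl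
      rw [h3]; ring
    · rw [rho_true hu, ← two_Nm (r := r) (some x0) a u]
      have h3 : sg (some x0) = -1 := rfl
      rw [h3]; ring
  · have hp : ∀ u : List α, par r u = false := by
      intro u
      induction u using List.reverseRecOn with
      | nil => rfl
      | append_singleton u x ih =>
        rw [par_snoc, ih]
        cases hx : r x
        · rfl
        · exact absurd ⟨x, hx⟩ h0
    refine (F00_known hab).congr fun w => ?_
    rw [F11]
    refine at_congr (fun u => ?_) w
    rw [rho_false (hp u), one_mul, X, na]
    exact at_congr (fun v => rho_false (hp v)) u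

/-- The signed pair counts of any two letters are known modulo every positive integer. -/
theorem F11_known [Finite α] (r : α → Bool) (a b : α) :
    KnZ (at_ b fun u => rho r u * X r a u) := by
  show KnZ (F11 r a b)
  by_cases hab : a = b
  · subst hab
    apply KnZ.div (c := 2) (by norm_num)
    refine (((X_known (r := r) a).mul (X_known (r := r) a)).sub (na_known a)).congr fun w => ?_
    exact_mod_cast self_rule a w
  · cases ha : r a
    · cases hb : r b
      · exact pos_pos ha hb hab
      · refine (((X_known (r := r) a).mul (X_known (r := r) b)).sub (refl_pos hb ha)).congr fun w => ?_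
        linear_combination -prod_rule (r := r) hab w
    · cases hb : r b
      · exact refl_pos ha hb
      · exact refl_refl ha hb hab

end Vale.Agent.P329.H265
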