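import Vale.Agent.P329.H265.Cnt

/-! Pair counts of moves. -/

namespace Vale.Agent.P329.H265

open Vale.Agent.P329 Vale.Agent.P329.S4

variable {α : Type}

/-- weights: `P` for the positive letters, `Z` the silent pairs -/
def mk (r : α → Bool) (P : α → Bool) (Z : α → α → Bool) : Option α → α → Bool
  | none, x => !(r x) && P x
  | some y, x => r x && !(Z y x)

theorem mk_C1 (r : α → Bool) (P : α → Bool) (Z : α → α → Bool) : C1 r (mk r P Z) := by
  intro φ x h
  rcases φ with _ | y
  · have h1 : (!(r x) && P x) = true := h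
    rw [Bool.and_eq_true, Bool.not_eq_true'] at h1
    exact nx_pos h1.1 _
  · have h1 : (r x && !(Z y x)) = true := h
    rw [Bool.and_eq_true] at h1
    exact nx_some h1.1

theorem mk_C2 (r : α → Bool) (P : α → Bool) {Z : α → α → Bool} {c : α → Bool}
    (h : ∀ y x, Z y x = true → c x = !(c y)) : C2 r (mk r P Z) c := by
  intro y x hx h1
  have h2 : (r x && !(Z y x)) = false := h1
  rw [hx, Bool.true_and, Bool.not_eq_false'] at h2
  exact h y x h2

variable {r : α → Bool}

/-- two silent pairs can be two-coloured -/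
theorem colour {y x y' x' : α} (h : y ≠ x) (h' : y' ≠ x') :
    ∃ c : α → Bool, c x = !(c y) ∧ c x' = !(c y') := by
  classical
  by_cases h1 : y = x'
  · refine ⟨fun z => decide (z = y), ?_, ?_⟩
    · simp [h.symm]
    · subst h1
      simp [h']
  · by_cases h2 : y' = x
    · refine ⟨fun z => decide (z = x), ?_, ?_⟩
      · simp [h]
      · subst h2
        simp [h'.symm]
    · refine ⟨fun z => decide (z = x ∨ z = x'), ?_, ?_⟩
      · simp [h, h1]
      · simp [h2, h']

open Classical in
/-- both moves are pairs of reflections -/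
theorem pair_bb [Finite α] {y x y' x' : α} (hx : r x = true) (hx' : r x' = true) (h : y ≠ x)
    (h' : y' ≠ x') (hne : ¬ (y' = y ∧ x' = x)) (φ : Option α) :
    KnZ (atp r φ (some y) x (Nm r φ (some y') x')) := by
  obtain ⟨c, hc, hc'⟩ := colour h h'
  refine pair_gen (wt0 := mk r (fun _ => false) fun a b => decide (a = y ∧ b = x))
    (wt1 := mk r (fun _ => false) fun a b => decide ((a = y ∧ b = x) ∨ (a = y' ∧ b = x')))
    (mk_C1 _ _ _) (mk_C1 _ _ _) (c0 := c) (c1 := c) (mk_C2 _ _ ?_) (mk_C2 _ _ ?_) ?_ ?_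
    (nx_some hx) ?_ φ
  · intro a b hab
    obtain ⟨rfl, rfl⟩ := of_decide_eq_true hab
    exact hc
  · intro a b hab
    rcases of_decide_eq_true hab with ⟨rfl, rfl⟩ | ⟨rfl, rfl⟩
    · exact hc
    · exact hc'
  · simp [mk]
  · simp [mk]
  · intro ψ z
    rcases ψ with _ | a
    · simp [mk]
    · by_cases h1 : a = y ∧ z = x
      · obtain ⟨rfl, rfl⟩ := h1
        have h2 : ¬ (a = y' ∧ z = x') := fun h3 => hne ⟨h3.1.symm, h3.2.symm⟩
        simp [mk, h2]
      · by_cases h2 : a = y' ∧ z = x'
        · obtain ⟨rfl, rfl⟩ := h2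
          simp [mk, h1, hx']
        · simp [mk, h1, h2]

open Classical in
/-- a pair of reflections, then a positive letter -/
theorem pair_pb [Finite α] {q y' x' : α} (hq : r q = false) (hx' : r x' = true)
    (h' : y' ≠ x') (φ : Option α) : KnZ (atp r φ none q (Nm r φ (some y') x')) := by
  refine pair_gen (wt0 := mk r (fun _ => false) fun _ _ => false)
    (wt1 := mk r (fun _ => false) fun a b => decide (a = y' ∧ b = x'))
    (mk_C1 _ _ _) (mk_C1 _ _ _) (c0 := fun _ => false) (c1 := fun z => decide (z = x'))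
    (mk_C2 _ _ ?_) (mk_C2 _ _ ?_) ?_ ?_ (nx_pos hq _) ?_ φ
  · intro a b hab; cases hab
  · intro a b hab
    obtain ⟨rfl, rfl⟩ := of_decide_eq_true hab
    simp [h']
  · simp [mk]
  · simp [mk]
  · intro ψ z
    rcases ψ with _ | a
    · simp [mk]
    · by_cases h2 : a = y' ∧ z = x'
      · obtain ⟨rfl, rfl⟩ := h2
        simp [mk, hx']
      · simp [mk, h2]

open Classical in
/-- two positive letters with nothing pending -/
theorem pair_pp [Finite α] {q p : α} (hq : r q = false) (hp : r p = false)
    (hpq : p ≠ q) (φ : Option α) : KnZ (atp r φ none q (Nm r φ none p)) := by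
  refine pair_gen (wt0 := mk r (fun z => decide (z = p)) fun _ _ => false)
    (wt1 := mk r (fun _ => false) fun _ _ => false)
    (mk_C1 _ _ _) (mk_C1 _ _ _) (c0 := fun _ => false) (c1 := fun _ => false)
    (mk_C2 _ _ ?_) (mk_C2 _ _ ?_) ?_ ?_ (nx_pos hq _) ?_ φ
  · intro a b hab; cases hab
  · intro a b hab; cases hab
  · simp [mk, hpq.symm]
  · simp [mk]
  · intro ψ z
    rcases ψ with _ | a
    · by_cases h2 : z = p
      · subst h2
        simp [mk, hp]
      · simp [mk, h2]
    · simp [mk]

open Classical in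
theorem num_b [Finite α] {y x : α} (hx : r x = true) (h : y ≠ x) (φ : Option α) :
    KnZ (Nm r φ (some y) x) := by
  refine num_known (wt := mk r (fun _ => false) fun a b => decide (a = y ∧ b = x))
    (mk_C1 _ _ _) (c := fun z => decide (z = x)) (mk_C2 _ _ ?_) ?_ (nx_some hx) φ
  · intro a b hab
    obtain ⟨rfl, rfl⟩ := of_decide_eq_true hab
    simp [h]
  · simp [mk]

theorem num_p [Finite α] {q : α} (hq : r q = false) (φ : Option α) :
    KnZ (Nm r φ none q) := by
  refine num_known (wt := mk r (fun _ => false) fun _ _ => false)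
    (mk_C1 _ _ _) (c := fun _ => false) (mk_C2 _ _ ?_) ?_ (nx_pos hq _) φ
  · intro a b hab; cases hab
  · simp [mk]

theorem Nm_snoc (φ φg : Option α) (xg : α) (w : List α) (x : α) :
    Nm r φ φg xg (w ++ [x]) = Nm r φ φg xg w +
      (by classical exact if x = xg ∧ w.foldl (nx r) φ = φg then 1 else 0) := by
  classical
  rw [Nm, atp, at_snoc]
  congr 1
  by_cases h1 : x = xg
  · by_cases h2 : w.foldl (nx r) φ = φg
    · rw [if_pos h1, if_pos h2, if_pos ⟨h1, h2⟩]
    · rw [if_pos h1, if_neg h2, if_neg fun h => h2 h.2]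
  · rw [if_neg h1, if_neg fun h => h1 h.1]

theorem atp_snoc (φ φe : Option α) (xe : α) (F : List α → ℤ) (w : List α) (x : α) :
    atp r φ φe xe F (w ++ [x]) = atp r φ φe xe F w +
      (by classical exact if x = xe ∧ w.foldl (nx r) φ = φe then F w else 0) := by
  classical
  rw [atp, at_snoc]
  congr 1
  by_cases h1 : x = xe
  · by_cases h2 : w.foldl (nx r) φ = φe
    · rw [if_pos h1, if_pos h2, if_pos ⟨h1, h2⟩]
    · rw [if_pos h1, if_neg h2, if_neg fun h => h2 h.2]
  · rw [if_neg h1, if_neg fun h => h1 h.1]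

theorem self_pair (φ φe : Option α) (xe : α) (w : List α) :
    2 * atp r φ φe xe (Nm r φ φe xe) w = Nm r φ φe xe w * Nm r φ φe xe w - Nm r φ φe xe w := by
  classical
  induction w using List.reverseRecOn with
  | nil => rfl
  | append_singleton w x ih =>
    rw [atp_snoc, Nm_snoc]
    by_cases h : x = xe ∧ w.foldl (nx r) φ = φe
    · rw [if_pos h, if_pos h]; linear_combination ih
    · rw [if_neg h, if_neg h]; linear_combination ih

theorem self_known [Finite α] {φ φe : Option α} {xe : α} (h : KnZ (Nm r φ φe xe)) :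
    KnZ (atp r φ φe xe (Nm r φ φe xe)) := by
  apply KnZ.div (c := 2) (by norm_num)
  refine ((h.mul h).sub h).congr fun w => ?_
  exact_mod_cast self_pair φ φe xe w

open Classical in
/-- pair counts of pairs of different reflections -/
theorem pair_bb' [Finite α] {y x y' x' : α} (hx : r x = true) (hx' : r x' = true) (h : y ≠ x)
    (h' : y' ≠ x') (φ : Option α) :
    KnZ (atp r φ (some y) x (Nm r φ (some y') x')) := by
  by_cases hne : y' = y ∧ x' = x
  · obtain ⟨rfl, rfl⟩ := hne
    exact self_known (num_b hx h φ)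
  · exact pair_bb hx hx' h h' hne φ

end Vale.Agent.P329.H265
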